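import Vale.Agent.P072.Perm.Region

/-! Solutions cannot leave a region, and reach the smallest one. -/

noncomputable section

namespace Vale.Agent.P072.Perm

open MeasureTheory Set Filter Topology

variable {d : ℕ} {R : Finset (Reaction d)} {k : ℝ → Reaction d → ℝ} {x : ℝ → V d} {a b ε : ℝ}

/-- A positive solution on `[a, b]`. -/
structure Sol (R : Finset (Reaction d)) (k : ℝ → Reaction d → ℝ) (x : ℝ → V d) (a b : ℝ) :
    Prop where
  le : a ≤ b
  pos : ∀ t ∈ Icc a b, ∀ i, 0 < x t i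
  int : IntervalIntegrable (fun s => field R (k s) (x s)) volume a b
  eqn : ∀ t ∈ Icc a b, x t = x a + ∫ s in a..t, field R (k s) (x s)

lemma sol_of_isSolution {T : ℝ} (hT : 0 ≤ T) (h : IsSolution R k x T) : Sol R k x 0 T :=
  ⟨hT, h.1, h.2.1, h.2.2⟩

namespace Sol

variable (h : Sol R k x a b)
include h

lemma int_sub {u v : ℝ} (hu : u ∈ Icc a b) (hv : v ∈ Icc a b) :
    IntervalIntegrable (fun s => field R (k s) (x s)) volume u v :=
  h.int.mono_set (uIcc_subset_uIcc (by rwa [uIcc_of_le h.le]) (by rwa [uIcc_of_le h.le]))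

lemma diff {u v : ℝ} (hu : u ∈ Icc a b) (hv : v ∈ Icc a b) :
    x v - x u = ∫ s in u..v, field R (k s) (x s) := by
  have ha : a ∈ Icc a b := left_mem_Icc.2 h.le
  rw [h.eqn u hu, h.eqn v hv, add_sub_add_left_eq_sub,
    intervalIntegral.integral_interval_sub_left (h.int_sub ha hv) (h.int_sub ha hu)]

lemma continuousOn : ContinuousOn x (Icc a b) := by
  refine ContinuousOn.congr ?_ h.eqn
  refine continuousOn_const.add ?_
  have h' := h.int
  rw [intervalIntegrable_iff_integrableOn_Icc_of_le h.le] at h'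
  have := intervalIntegral.continuousOn_primitive_interval (μ := volume)
    (f := fun s => field R (k s) (x s)) (a := a) (b := b) (by rwa [uIcc_of_le h.le])
  rwa [uIcc_of_le h.le] at this

lemma restrict {u v : ℝ} (hu : a ≤ u) (huv : u ≤ v) (hv : v ≤ b) : Sol R k x u v := by
  have hu' : u ∈ Icc a b := ⟨hu, huv.trans hv⟩
  refine ⟨huv, fun t ht => h.pos t ⟨hu.trans ht.1, ht.2.trans hv⟩,
    h.int_sub hu' ⟨hu.trans huv, hv⟩, fun t ht => ?_⟩
  rw [← h.diff hu' ⟨hu.trans ht.1, ht.2.trans hv⟩]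
  abel

lemma dot_diff (n : V d) {u v : ℝ} (hu : u ∈ Icc a b) (hv : v ∈ Icc a b) :
    n ⬝ᵥ x v - n ⬝ᵥ x u = ∫ s in u..v, n ⬝ᵥ field R (k s) (x s) := by
  have e := (LinearMap.toContinuousLinearMap
    (dotProductBilin ℝ ℝ n : V d →ₗ[ℝ] ℝ)).intervalIntegral_comp_comm (h.int_sub hu hv)
  simp only [LinearMap.coe_toContinuousLinearMap'] at e
  rw [← dotProduct_sub, h.diff hu hv]
  exact e.symm

lemma dot_int (n : V d) {u v : ℝ} (hu : u ∈ Icc a b) (hv : v ∈ Icc a b) :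
    IntervalIntegrable (fun s => n ⬝ᵥ field R (k s) (x s)) volume u v := by
  have h' := h.int_sub hu hv
  exact ⟨(LinearMap.toContinuousLinearMap (dotProductBilin ℝ ℝ n : V d →ₗ[ℝ] ℝ)).integrable_comp h'.1,
    (LinearMap.toContinuousLinearMap (dotProductBilin ℝ ℝ n : V d →ₗ[ℝ] ℝ)).integrable_comp h'.2⟩

lemma mem_class {c : V d} (ha : x a ∈ posClass R c) : ∀ t ∈ Icc a b, x t ∈ posClass R c := by
  intro t ht
  refine ⟨h.pos t ht, ?_⟩
  by_contra hno
  obtain ⟨f, hf, hfS⟩ := Submodule.exists_dual_map_eq_bot_of_notMem hno inferInstance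
  refine hf ?_
  have hker : ∀ v ∈ stoich R, f v = 0 := fun v hv => LinearMap.mem_ker.1 (LinearMap.le_ker_iff_map.2 hfS hv)
  have e := (LinearMap.toContinuousLinearMap f).intervalIntegral_comp_comm
    (h.int_sub (left_mem_Icc.2 h.le) ht)
  simp only [LinearMap.coe_toContinuousLinearMap'] at e
  rw [show x t - c = (x t - x a) + (x a - c) by abel, map_add, hker _ ha.2, add_zero,
    h.diff (left_mem_Icc.2 h.le) ht, ← e]
  refine intervalIntegral.integral_zero_ae (Eventually.of_forall fun s _ => hker _ ?_)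
  exact Submodule.sum_mem _ fun r hr =>
    Submodule.smul_mem _ _ (Submodule.subset_span ⟨r, hr, rfl⟩)

/-- An affine function decreasing faster than `η` stays below a line of that slope. -/
lemma eventually_below (hk : ∀ t ∈ Icc a b, ∀ r ∈ R, k t r ∈ Icc ε ε⁻¹) (n : V d) {η t : ℝ}
    (ht : t ∈ Ico a b) (hφ : phi R ε n (x t) < -η) :
    ∀ᶠ r in 𝓝[>] t, n ⬝ᵥ x r - n ⬝ᵥ x t ≤ -η * (r - t) := by
  have hc : ContinuousWithinAt (fun s => phi R ε n (x s)) (Icc a b) t :=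
    ((continuous_phi R ε n).comp_continuousOn h.continuousOn) t (Ico_subset_Icc_self ht)
  have hev : ∀ᶠ s in 𝓝[Icc a b] t, phi R ε n (x s) < -η :=
    hc.tendsto.eventually (gt_mem_nhds hφ)
  obtain ⟨ρ, hρ, hball⟩ := Metric.eventually_nhds_iff.1 (eventually_nhdsWithin_iff.1 hev)
  filter_upwards [Ioc_mem_nhdsGT (lt_min (show t < t + ρ / 2 by linarith) ht.2)] with r hr
  have hrb : r ≤ b := hr.2.trans (min_le_right _ _)
  have hrI : r ∈ Icc a b := ⟨ht.1.trans hr.1.le, hrb⟩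
  rw [h.dot_diff n (Ico_subset_Icc_self ht) hrI]
  refine (intervalIntegral.integral_mono_on hr.1.le (h.dot_int n (Ico_subset_Icc_self ht) hrI)
    intervalIntegrable_const fun s hs => ?_).trans_eq
    (by rw [intervalIntegral.integral_const, smul_eq_mul, mul_comm])
  have hsI : s ∈ Icc a b := ⟨ht.1.trans hs.1, hs.2.trans hrb⟩
  refine (dot_field_le (hk s hsI) n (x s)).trans (hball ?_ hsI).le
  rw [Real.dist_eq, abs_lt]
  constructor <;> linarith [hs.1, hs.2, hr.2.trans (min_le_left (t + ρ / 2) b)]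

/-- Finitely many affine functions stay below a decreasing line. -/
lemma barrier (hk : ∀ t ∈ Icc a b, ∀ r ∈ R, k t r ∈ Icc ε ε⁻¹)
    (L : Finset (V d × (ℝ → ℝ))) (H u0 η : ℝ) (h0 : ∀ l ∈ L, l.1 ⬝ᵥ x a - l.2 H ≤ u0)
    (hact : ∀ t ∈ Ico a b, (∀ l ∈ L, l.1 ⬝ᵥ x t - l.2 H ≤ u0 - η * (t - a)) → ∀ l ∈ L,
      l.1 ⬝ᵥ x t - l.2 H = u0 - η * (t - a) → phi R ε l.1 (x t) < -η) :
    ∀ t ∈ Icc a b, ∀ l ∈ L, l.1 ⬝ᵥ x t - l.2 H ≤ u0 - η * (t - a) := by
  set g : V d × (ℝ → ℝ) → ℝ → ℝ := fun l t => l.1 ⬝ᵥ x t - l.2 H + η * (t - a)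
  have hg : ∀ l, ContinuousOn (g l) (Icc a b) := fun l =>
    ((((by unfold dotProduct; fun_prop : Continuous fun v : V d => l.1 ⬝ᵥ v)).comp_continuousOn
      h.continuousOn).sub continuousOn_const).add (by fun_prop)
  set S := {t | ∀ l ∈ L, g l t ≤ u0}
  have hsub : Icc a b ⊆ S := by
    have hc : IsClosed (S ∩ Icc a b) := by
      have e : S ∩ Icc a b = Icc a b ∩ ⋂ l ∈ L, Icc a b ∩ g l ⁻¹' Iic u0 := by
        ext t
        simp only [S, mem_inter_iff, mem_iInter, mem_preimage, mem_Iic, mem_ofPred_eq]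
        exact ⟨fun ⟨h1, h2⟩ => ⟨h2, fun l hl => ⟨h2, h1 l hl⟩⟩,
          fun ⟨h1, h2⟩ => ⟨fun l hl => (h2 l hl).2, h1⟩⟩
      rw [e]
      exact isClosed_Icc.inter (isClosed_biInter fun l _ =>
        (hg l).preimage_isClosed_of_isClosed isClosed_Icc isClosed_Iic)
    refine hc.Icc_subset_of_forall_mem_nhdsWithin ?_ fun t ⟨ht, htI⟩ => ?_
    · intro l hl
      simpa [g] using h0 l hl
    refine (Finset.eventually_all L).2 fun l hl => ?_
    rcases (ht l hl).eq_or_lt with he | hlt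
    · filter_upwards [h.eventually_below hk l.1 htI (hact t htI
        (fun l' hl' => by have := ht l' hl'; simp only [g] at this; linarith) l hl
        (by simp only [g] at he; linarith))] with r hr
      simp only [g] at he ⊢
      linarith
    · have hwc : ContinuousWithinAt (g l) (Ioi t) t :=
        (hg l t (Ico_subset_Icc_self htI)).mono_of_mem_nhdsWithin
          (mem_nhdsGT_iff_exists_Ioc_subset.2
            ⟨b, htI.2, fun y hy => ⟨htI.1.trans hy.1.le, hy.2⟩⟩)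
      exact (hwc.tendsto.eventually (gt_mem_nhds hlt)).mono fun r hr => hr.le
  intro t ht l hl
  have := hsub ht l hl
  simp only [g] at this
  linarith

/-- Forward invariance of a region. -/
lemma mem_region {c : V d} {L : Finset (V d × (ℝ → ℝ))} {H : ℝ}
    (hdec : ∀ y ∈ region R c L H, ∀ l ∈ L, 0 ≤ l.1 ⬝ᵥ y - l.2 H →
      (∀ l' ∈ L, l'.1 ⬝ᵥ y - l'.2 H ≤ l.1 ⬝ᵥ y - l.2 H) → phi R ε l.1 y < 0)
    (hk : ∀ t ∈ Icc a b, ∀ r ∈ R, k t r ∈ Icc ε ε⁻¹) (ha : x a ∈ region R c L H) :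
    ∀ t ∈ Icc a b, x t ∈ region R c L H := by
  have hcl := h.mem_class ha.1
  have hb := h.barrier hk L H 0 0 (fun l hl => sub_nonpos.2 (ha.2 l hl))
    fun t ht hall l hl he => by
      simp only [zero_mul, sub_zero] at hall he
      rw [neg_zero]
      exact hdec _ ⟨hcl t (Ico_subset_Icc_self ht), fun l' hl' => sub_nonpos.1 (hall l' hl')⟩ l hl
        he.ge fun l' hl' => (hall l' hl').trans he.ge
  refine fun t ht => ⟨hcl t ht, fun l hl => sub_nonpos.1 ?_⟩
  simpa using hb t ht l hl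

end Sol

/-- A compact region is absorbed by the next one in finite time. -/
lemma reach {c : V d} {L : Finset (V d × (ℝ → ℝ))} {H H' : ℝ}
    (hQ : IsCompact (region R c L H'))
    (hdec' : ∀ y ∈ region R c L H', ∀ l ∈ L, 0 ≤ l.1 ⬝ᵥ y - l.2 H' →
      (∀ l' ∈ L, l'.1 ⬝ᵥ y - l'.2 H' ≤ l.1 ⬝ᵥ y - l.2 H') → phi R ε l.1 y < 0)
    (hdec : ∀ y ∈ region R c L H', ∀ l ∈ L, 0 ≤ l.1 ⬝ᵥ y - l.2 H →
      (∀ l' ∈ L, l'.1 ⬝ᵥ y - l'.2 H ≤ l.1 ⬝ᵥ y - l.2 H) → phi R ε l.1 y < 0)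
    (hk : ∀ t, 0 ≤ t → ∀ r ∈ R, k t r ∈ Icc ε ε⁻¹) (hs : ∀ T, 0 ≤ T → IsSolution R k x T)
    (ha0 : 0 ≤ a) (ha : x a ∈ region R c L H') : ∃ T, a ≤ T ∧ x T ∈ region R c L H := by
  have hneg : ∀ l ∈ L, ∃ η > 0, ∀ y ∈ region R c L H', 0 ≤ l.1 ⬝ᵥ y - l.2 H →
      (∀ l' ∈ L, l'.1 ⬝ᵥ y - l'.2 H ≤ l.1 ⬝ᵥ y - l.2 H) → phi R ε l.1 y < -η := by
    intro l hl
    set A := region R c L H' ∩ ({y | 0 ≤ l.1 ⬝ᵥ y - l.2 H} ∩
      ⋂ l' ∈ L, {y | l'.1 ⬝ᵥ y - l'.2 H ≤ l.1 ⬝ᵥ y - l.2 H}) with hA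
    have hcont : ∀ n : V d, Continuous fun y : V d => n ⬝ᵥ y := fun n => by
      unfold dotProduct; fun_prop
    have hAc : IsCompact A := hQ.inter_right (IsClosed.inter
      (isClosed_le continuous_const ((hcont _).sub continuous_const))
      (isClosed_biInter fun l' _ => isClosed_le ((hcont _).sub continuous_const)
        ((hcont _).sub continuous_const)))
    rcases A.eq_empty_or_nonempty with he | hne
    · refine ⟨1, one_pos, fun y hy h0 hle => absurd (?_ : y ∈ A) (by simp [he])⟩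
      exact ⟨hy, h0, mem_iInter₂.2 hle⟩
    · obtain ⟨y₀, ⟨hy₀, h00, hle₀⟩, hmax⟩ :=
        hAc.exists_isMaxOn hne (continuous_phi R ε l.1).continuousOn
      have hlt := hdec y₀ hy₀ l hl h00 fun l' hl' => (mem_iInter₂.1 hle₀ :) l' hl'
      refine ⟨-phi R ε l.1 y₀ / 2, by linarith, fun y hy h0 hle => ?_⟩
      have : phi R ε l.1 y ≤ phi R ε l.1 y₀ := hmax ⟨hy, h0, mem_iInter₂.2 hle⟩
      linarith
  choose η hη hηb using hneg
  obtain ⟨e, he, hle⟩ : ∃ e > (0 : ℝ), ∀ l (hl : l ∈ L), e ≤ η l hl := by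
    classical
    set E : Finset ℝ := insert 1 (L.attach.image fun l => η l.1 l.2)
    refine ⟨E.min' (Finset.insert_nonempty _ _), (Finset.lt_min'_iff _ _).2 fun y hy => ?_,
      fun l hl => Finset.min'_le _ _ (Finset.mem_insert_of_mem
        (Finset.mem_image.2 ⟨⟨l, hl⟩, Finset.mem_attach _ _, rfl⟩))⟩
    rcases Finset.mem_insert.1 hy with rfl | hy
    · exact one_pos
    · obtain ⟨l, -, rfl⟩ := Finset.mem_image.1 hy
      exact hη _ _
  set u0 := ∑ l ∈ L, |l.1 ⬝ᵥ x a - l.2 H|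
  have hu0 : 0 ≤ u0 := Finset.sum_nonneg fun _ _ => abs_nonneg _
  set T := a + u0 / e
  have haT : a ≤ T := le_add_of_nonneg_right (by positivity)
  have hsol := (sol_of_isSolution (ha0.trans haT) (hs T (ha0.trans haT))).restrict ha0 haT le_rfl
  have hk' : ∀ t ∈ Icc a T, ∀ r ∈ R, k t r ∈ Icc ε ε⁻¹ := fun t ht => hk t (ha0.trans ht.1)
  have hstay := hsol.mem_region hdec' hk' ha
  have hb := hsol.barrier hk' L H u0 e (fun l hl => (le_abs_self _).trans
    (Finset.single_le_sum (f := fun l : V d × (ℝ → ℝ) => |l.1 ⬝ᵥ x a - l.2 H|)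
      (fun _ _ => abs_nonneg _) hl)) fun t ht hall l hl heq => by
      have h1 : e * (t - a) ≤ u0 := by
        have : t - a ≤ u0 / e := by simp only [T] at ht; linarith [ht.2]
        rwa [le_div_iff₀ he, mul_comm] at this
      have := hηb l hl _ (hstay t (Ico_subset_Icc_self ht)) (by linarith)
        (fun l' hl' => by linarith [hall l' hl'])
      linarith [hle l hl]
  refine ⟨T, haT, hsol.mem_class ha.1 T (right_mem_Icc.2 haT), fun l hl => ?_⟩
  have := hb T (right_mem_Icc.2 haT) l hl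
  rw [show T - a = u0 / e by simp [T], mul_div_cancel₀ _ he.ne', sub_self] at this
  linarith

end Vale.Agent.P072.Perm
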