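import Vale.Agent.P072.Perm.Flow

/-! Existence, uniqueness and permanence. -/

noncomputable section

namespace Vale.Agent.P072.Perm

open MeasureTheory Set Filter Topology
open scoped NNReal

variable {d : ℕ}

/-- Concentrations clamped to `[l, u]`. -/
def clip (l u : ℝ) (x : V d) : V d := fun i => max l (min (x i) u)

lemma clip_lipschitz (l u : ℝ) : LipschitzWith 1 (clip (d := d) l u) :=
  LipschitzWith.of_dist_le_mul fun x y => by
    rw [NNReal.coe_one, one_mul, dist_pi_le_iff dist_nonneg]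
    intro i
    refine le_trans ?_ (dist_le_pi_dist x y i)
    simp only [clip, Real.dist_eq]
    refine (abs_max_sub_max_le_max _ _ _ _).trans (max_le (by simp) ?_)
    exact (abs_min_sub_min_le_max _ _ _ _).trans (max_le le_rfl (by simp))

lemma clip_mem {l u : ℝ} (h : l ≤ u) (x : V d) :
    clip l u x ∈ Icc (fun _ : Fin d => l) (fun _ => u) :=
  ⟨fun _ => le_max_left _ _, fun i => max_le h (min_le_right _ _)⟩

/-- The field of the clamped concentrations. -/
def cfield (R : Finset (Reaction d)) (l u : ℝ) (κ : Reaction d → ℝ) (x : V d) : V d :=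
  field R κ (clip l u x)

lemma cfield_eq {R : Finset (Reaction d)} {l u : ℝ} {κ : Reaction d → ℝ} {x : V d}
    (h : ∀ i, x i ∈ Icc l u) : cfield R l u κ x = field R κ x := by
  rw [cfield]
  congr 1
  funext i
  rw [clip, min_eq_left (h i).2, max_eq_right (h i).1]

lemma exists_cfield_bound (R : Finset (Reaction d)) {l u ε : ℝ} (h : l ≤ u) (hε : 0 < ε) :
    ∃ K : ℝ≥0, ∀ κ : Reaction d → ℝ, (∀ r ∈ R, κ r ∈ Icc ε ε⁻¹) →
      LipschitzWith K (cfield R l u κ) ∧ ∀ x, ‖cfield R l u κ x‖ ≤ K := by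
  set Bx : Set (V d) := Icc (fun _ => l) (fun _ => u)
  have hmon : ∀ r : Reaction d, ∃ K : ℝ≥0,
      LipschitzOnWith K (fun x : V d => ∏ i, x i ^ r.1 i) Bx ∧
        ∀ x ∈ Bx, |∏ i, x i ^ r.1 i| ≤ K := by
    intro r
    have hf : ContDiff ℝ 1 (fun x : V d => ∏ i, x i ^ r.1 i) := by fun_prop
    obtain ⟨K, hK⟩ := hf.contDiffOn.exists_lipschitzOnWith one_ne_zero (convex_Icc _ _)
      (isCompact_Icc : IsCompact Bx)
    obtain ⟨B, hB⟩ := (isCompact_Icc : IsCompact Bx).exists_bound_of_continuousOn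
      hf.continuous.continuousOn
    refine ⟨max K B.toNNReal, hK.weaken (le_max_left _ _), fun x hx => ?_⟩
    exact ((Real.norm_eq_abs _).symm.le.trans (hB x hx)).trans
      ((Real.le_coe_toNNReal B).trans (NNReal.coe_le_coe.2 (le_max_right _ _)))
  choose K hK hKb using hmon
  set C : ℝ := ∑ r ∈ R, ε⁻¹ * K r * ‖vec r‖
  have hC : 0 ≤ C := Finset.sum_nonneg fun r _ => by positivity
  refine ⟨C.toNNReal, fun κ hκ => ⟨LipschitzWith.of_dist_le_mul fun v w => ?_, fun w => ?_⟩⟩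
  · rw [Real.coe_toNNReal _ hC, dist_eq_norm, cfield, cfield, field, field,
      ← Finset.sum_sub_distrib, Finset.sum_mul]
    refine (norm_sum_le _ _).trans (Finset.sum_le_sum fun r hr => ?_)
    rw [← sub_smul, norm_smul, ← mul_sub, norm_mul, Real.norm_of_nonneg (hε.le.trans (hκ r hr).1),
      show ε⁻¹ * K r * ‖vec r‖ * dist v w = ε⁻¹ * (K r * dist v w) * ‖vec r‖ by ring]
    refine mul_le_mul_of_nonneg_right (mul_le_mul (hκ r hr).2 ?_ (norm_nonneg _)
      (inv_pos.2 hε).le) (norm_nonneg _)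
    rw [← dist_eq_norm]
    refine ((hK r).dist_le_mul _ (clip_mem h v) _ (clip_mem h w)).trans ?_
    refine mul_le_mul_of_nonneg_left ?_ (K r).coe_nonneg
    simpa using (clip_lipschitz l u).dist_le_mul v w
  · rw [Real.coe_toNNReal _ hC, cfield, field]
    refine (norm_sum_le _ _).trans (Finset.sum_le_sum fun r hr => ?_)
    rw [norm_smul, norm_mul, Real.norm_of_nonneg (hε.le.trans (hκ r hr).1)]
    exact mul_le_mul_of_nonneg_right (mul_le_mul (hκ r hr).2 (hKb r _ (clip_mem h w))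
      (norm_nonneg _) (inv_pos.2 hε).le) (norm_nonneg _)

/-- Existence and uniqueness on the half line from a point of an invariant compact set. -/
theorem exists_unique_sol {R : Finset (Reaction d)} {k : ℝ → Reaction d → ℝ} {ε : ℝ} (hε : 0 < ε)
    {Q : Set (V d)} (hQ : IsCompact Q) (hQpos : ∀ y ∈ Q, ∀ i, 0 < y i)
    (hstay : ∀ x a b, Sol R k x a b → x a ∈ Q → ∀ t ∈ Icc a b, x t ∈ Q)
    (hk : ∀ t, ∀ r ∈ R, k t r ∈ Icc ε ε⁻¹) (hkc : ∀ r ∈ R, Continuous fun t => k t r)
    {x₀ : V d} (hx₀ : x₀ ∈ Q) :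
    ∃ w : ℝ → V d, w 0 = x₀ ∧ (∀ T, 0 ≤ T → IsSolution R k w T) ∧
      ∀ T v, 0 ≤ T → IsSolution R k v T → v 0 = x₀ → EqOn v w (Icc 0 T) := by
  obtain ⟨B, hB⟩ := hQ.exists_bound_of_continuousOn
    (f := fun w : V d => ∑ i, (w i + (w i)⁻¹))
    (continuousOn_finsetSum _ fun i _ => (continuous_apply i).continuousOn.add
      ((continuous_apply i).continuousOn.inv₀ fun w hw => (hQpos w hw i).ne'))
  set u := |B| + 1
  have hu1 : 1 ≤ u := le_add_of_nonneg_left (abs_nonneg B)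
  have hu : 0 < u := lt_of_lt_of_le one_pos hu1
  have hlu : u⁻¹ ≤ u := (inv_le_one_of_one_le₀ hu1).trans hu1
  set U := {w : V d | ∀ i, w i ∈ Ioo u⁻¹ u}
  have hUo : IsOpen U := by
    simp only [U, Set.setOf_forall]
    exact isOpen_iInter_of_finite fun i => isOpen_Ioo.preimage (continuous_apply i)
  have hQU : ∀ w ∈ Q, w ∈ U := fun w hw i => by
    have h1 := hB w hw
    rw [Real.norm_eq_abs] at h1
    have h2 : w i + (w i)⁻¹ ≤ |B| :=
      le_trans (Finset.single_le_sum (f := fun j => w j + (w j)⁻¹)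
        (fun j _ => (add_pos (hQpos w hw j) (inv_pos.2 (hQpos w hw j))).le) (Finset.mem_univ i))
        ((le_abs_self _).trans (h1.trans (le_abs_self B)))
    have hx := hQpos w hw i
    refine ⟨inv_lt_of_inv_lt₀ hx ?_, ?_⟩
    · simp only [u]; linarith
    · simp only [u]; linarith [inv_pos.2 hx]
  have hUeq : ∀ w ∈ U, ∀ κ, cfield R u⁻¹ u κ w = field R κ w := fun w hw κ =>
    cfield_eq fun i => Ioo_subset_Icc_self (hw i)
  obtain ⟨K, hK⟩ := exists_cfield_bound R hlu hε (ε := ε)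
  set f := fun t w => cfield R u⁻¹ u (k t) w
  have hfc : Continuous (Function.uncurry f) := by
    refine continuous_finsetSum _ fun r hr => ?_
    refine (((hkc r hr).comp continuous_fst).mul ?_).smul continuous_const
    exact (by fun_prop : Continuous fun x : V d => ∏ i, x i ^ r.1 i).comp
      ((clip_lipschitz u⁻¹ u).continuous.comp continuous_snd)
  have key : ∀ T : ℝ, 0 ≤ T → ∃ α : ℝ → V d, α 0 = x₀ ∧ IsSolution R k α T ∧
      ∀ v, IsSolution R k v T → v 0 = x₀ → EqOn v α (Icc 0 T) := by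
    intro T hT
    set t₀ : Icc (0 : ℝ) T := ⟨0, le_rfl, hT⟩
    have hP : IsPicardLindelof f t₀ x₀ (K * T.toNNReal) 0 K K :=
      ⟨fun t _ => (hK _ (hk t)).1.lipschitzOnWith, fun x _ =>
        (hfc.comp (continuous_id.prodMk continuous_const)).continuousOn,
        fun t _ x _ => (hK _ (hk t)).2 x, by
          show (K : ℝ) * max (T - 0) (0 - 0) ≤ _
          push_cast
          rw [sub_zero, sub_zero, sub_zero, max_eq_left hT, Real.coe_toNNReal _ hT]⟩
    obtain ⟨α, hα0, hαd⟩ := hP.exists_eq_forall_mem_Icc_hasDerivWithinAt₀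
    change α 0 = x₀ at hα0
    have hαc : ContinuousOn α (Icc 0 T) := HasDerivWithinAt.continuousOn hαd
    have hα' : ∀ t ∈ Icc (0 : ℝ) T, α t = x₀ + ∫ s in (0 : ℝ)..t, f s (α s) := by
      intro t ht
      have hsub : uIcc 0 t ⊆ Icc 0 T := by
        rw [uIcc_of_le ht.1]; exact Icc_subset_Icc le_rfl ht.2
      have h := ODE.picard_eq_of_hasDerivAt (u := Set.univ) hfc.continuousOn
        (fun t' ht' => (hαd t' (hsub ht')).mono hsub) fun _ _ => trivial
      rw [ODE.picard_apply, hα0] at h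
      exact h.symm
    have hfa : ContinuousOn (fun s => f s (α s)) (Icc 0 T) :=
      hfc.comp_continuousOn (continuousOn_id.prodMk hαc)
    have hint : ∀ a b, 0 ≤ a → a ≤ b → b ≤ T →
        IntervalIntegrable (fun s => f s (α s)) volume a b := fun a b ha hab hb =>
      (hfa.mono (Icc_subset_Icc ha hb)).intervalIntegrable_of_Icc hab
    have hsolU : ∀ a b, 0 ≤ a → a ≤ b → b ≤ T → (∀ t ∈ Icc a b, α t ∈ U) →
        Sol R k α a b := by
      intro a b ha hab hb hU
      have he : EqOn (fun s => f s (α s)) (fun s => field R (k s) (α s)) (Icc a b) :=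
        fun s hs => hUeq _ (hU s hs) _
      refine ⟨hab, fun t ht i => (inv_pos.2 hu).trans (hU t ht i).1, ?_, fun t ht => ?_⟩
      · refine (hint a b ha hab hb).congr ?_
        rw [uIoc_of_le hab]
        exact (he.mono Ioc_subset_Icc_self)
      · rw [hα' t ⟨ha.trans ht.1, ht.2.trans hb⟩, hα' a ⟨ha, hab.trans hb⟩, add_assoc,
          intervalIntegral.integral_congr (f := fun s => field R (k s) (α s))
            (g := fun s => f s (α s)) (a := a) (b := t) (he.symm.mono (by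
              rw [uIcc_of_le ht.1]; exact Icc_subset_Icc le_rfl ht.2)),
          intervalIntegral.integral_add_adjacent_intervals (hint 0 a le_rfl ha (hab.trans hb))
            (hint a t ha ht.1 (ht.2.trans hb))]
    set S := {t | α t ∈ Q}
    have hSI : Icc (0 : ℝ) T ⊆ S := by
      have hc : IsClosed (S ∩ Icc 0 T) := by
        rw [Set.inter_comm]
        exact hαc.preimage_isClosed_of_isClosed isClosed_Icc hQ.isClosed
      refine hc.Icc_subset_of_forall_mem_nhdsWithin ?_ fun x ⟨hx, hxI⟩ => ?_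
      · show α 0 ∈ Q
        rwa [hα0]
      have hwc : ContinuousWithinAt α (Ioi x) x :=
        (hαc x (Ico_subset_Icc_self hxI)).mono_of_mem_nhdsWithin
          (mem_nhdsGT_iff_exists_Ioc_subset.2
            ⟨T, hxI.2, fun y hy => ⟨hxI.1.trans hy.1.le, hy.2⟩⟩)
      obtain ⟨b, hb, hball⟩ := mem_nhdsGT_iff_exists_Ioc_subset.1
        (hwc.tendsto.eventually (hUo.mem_nhds (hQU _ hx)))
      filter_upwards [Ioc_mem_nhdsGT (lt_min hb hxI.2)] with t ht
      have hs := hsolU x t hxI.1 ht.1.le (ht.2.trans (min_le_right _ _)) fun s hs => by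
        rcases hs.1.eq_or_lt with e | e
        · rw [← e]; exact hQU _ hx
        · exact hball ⟨e, hs.2.trans (ht.2.trans (min_le_left _ _))⟩
      exact hstay α x t hs hx t (right_mem_Icc.2 ht.1.le)
    have hsol := hsolU 0 T le_rfl hT le_rfl fun t ht => hQU _ (hSI ht)
    refine ⟨α, hα0, ⟨hsol.pos, hsol.int, hsol.eqn⟩, fun v hv hv0 => ?_⟩
    have hv' := sol_of_isSolution hT hv
    have hvU : ∀ t ∈ Icc (0 : ℝ) T, v t ∈ U := fun t ht =>
      hQU _ (hstay v 0 T hv' (by rwa [hv0]) t ht)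
    have hvc := hv'.continuousOn
    have hvp : ∀ t ∈ Icc (0 : ℝ) T, v t = ODE.picard f 0 x₀ v t := fun t ht => by
      rw [hv'.eqn t ht, hv0, ODE.picard_apply]
      congr 1
      refine intervalIntegral.integral_congr fun s hs => ?_
      rw [uIcc_of_le ht.1] at hs
      exact (hUeq _ (hvU s ⟨hs.1, hs.2.trans ht.2⟩) _).symm
    have hder : ∀ β : ℝ → V d, ContinuousOn β (Icc 0 T) →
        (∀ t ∈ Icc (0 : ℝ) T, β t = ODE.picard f 0 x₀ β t) →
        ∀ t ∈ Ico (0 : ℝ) T, HasDerivWithinAt β (f t (β t)) (Ici t) t := by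
      intro β hβ he t ht
      have h := ODE.hasDerivWithinAt_picard_Icc (u := Set.univ) (t₀ := (0 : ℝ))
        (left_mem_Icc.2 hT) hfc.continuousOn hβ (fun _ _ => trivial) x₀
        (Ico_subset_Icc_self ht)
      exact ((h.congr he (he t (Ico_subset_Icc_self ht))).mono_of_mem_nhdsWithin
        (Filter.mem_of_superset (Icc_mem_nhdsGE ht.2) (Icc_subset_Icc ht.1 le_rfl)))
    exact ODE_solution_unique (fun t => (hK _ (hk t)).1) hvc (hder v hvc hvp) hαc
      (hder α hαc fun t ht => hα' t ht) (hv0.trans hα0.symm)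
  choose α hα0 hαs hαu using key
  set w : ℝ → V d := fun t => α (max t 0) (le_max_right _ _) t
  have hw : ∀ T (hT : 0 ≤ T), EqOn w (α T hT) (Icc 0 T) := by
    intro T hT t ht
    show α (max t 0) _ t = α T hT t
    have hm : max t 0 ≤ T := max_le ht.2 hT
    have hres := (sol_of_isSolution hT (hαs T hT)).restrict le_rfl (le_max_right t 0) hm
    exact (hαu _ (le_max_right _ _) _ ⟨hres.pos, hres.int, hres.eqn⟩ (hα0 T hT)
      ⟨ht.1, le_max_left _ _⟩).symm
  have hw0 : w 0 = x₀ := by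
    rw [hw 0 le_rfl ⟨le_rfl, le_rfl⟩]; exact hα0 0 le_rfl
  refine ⟨w, hw0, fun T hT => ?_, fun T v hT hv hv0 t ht => ?_⟩
  · obtain ⟨h1, h2, h3⟩ := hαs T hT
    refine ⟨fun t ht => by rw [hw T hT ht]; exact h1 t ht, h2.congr ?_, fun t ht => ?_⟩
    · intro s hs
      rw [uIoc_of_le hT] at hs
      show field R (k s) (α T hT s) = field R (k s) (w s)
      rw [hw T hT (Ioc_subset_Icc_self hs)]
    · rw [hw T hT ht, hw0, h3 t ht, hα0]
      congr 1
      refine intervalIntegral.integral_congr fun s hs => ?_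
      rw [uIcc_of_le ht.1] at hs
      show field R (k s) (α T hT s) = field R (k s) (w s)
      rw [hw T hT ⟨hs.1, hs.2.trans ht.2⟩]
  · rw [hαu T hT v hv hv0 ht, hw T hT ht]

/-- Weakly reversible networks are permanent on every positive class. -/
theorem permanence (R : Finset (Reaction d)) (hR : WeaklyReversible R) {ε : ℝ} (hε : 0 < ε)
    (hε1 : ε ≤ 1) {c : Fin d → ℝ} (hc : ∀ i, 0 < c i) :
    ∃ K : Set (Fin d → ℝ), IsCompact K ∧ K ⊆ posClass R c ∧
      (∀ x₀ ∈ posClass R c, ∃ K₀ : Set (Fin d → ℝ), IsCompact K₀ ∧ K₀ ⊆ posClass R c ∧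
        ∀ (k : ℝ → Reaction d → ℝ) (x : ℝ → Fin d → ℝ) (T : ℝ), 0 ≤ T →
          (∀ t ∈ Icc 0 T, ∀ r ∈ R, k t r ∈ Icc ε ε⁻¹) →
          IsSolution R k x T → x 0 = x₀ → ∀ t ∈ Icc 0 T, x t ∈ K₀) ∧
      (∀ (k : ℝ → Reaction d → ℝ) (x : ℝ → Fin d → ℝ),
        (∀ t, 0 ≤ t → ∀ r ∈ R, k t r ∈ Icc ε ε⁻¹) →
        (∀ T, 0 ≤ T → IsSolution R k x T) → x 0 ∈ posClass R c →
          ∃ T₀, ∀ t, T₀ ≤ t → x t ∈ K) ∧
      ∀ k : ℝ → Reaction d → ℝ, (∀ t, 0 ≤ t → ∀ r ∈ R, k t r ∈ Icc ε ε⁻¹) →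
        (∀ r ∈ R, ContinuousOn (fun t => k t r) (Ici 0)) → ∀ x₀ ∈ posClass R c,
          ∃ x : ℝ → Fin d → ℝ, x 0 = x₀ ∧ (∀ T, 0 ≤ T → IsSolution R k x T) ∧
            ∀ (y : ℝ → Fin d → ℝ) (T : ℝ), 0 ≤ T → IsSolution R k y T → y 0 = x₀ →
              EqOn y x (Icc 0 T) := by
  obtain ⟨L, H0, hH0, hcomp, hexh, hdec⟩ := exists_region R hR hε hε1 hc
  have hge : ∀ j : ℕ, H0 ≤ 2 ^ j * H0 := fun j =>
    le_mul_of_one_le_left hH0.le (one_le_pow₀ one_le_two)
  have hself : ∀ j : ℕ, ∀ y ∈ region R c L (2 ^ j * H0), ∀ l ∈ L,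
      0 ≤ l.1 ⬝ᵥ y - l.2 (2 ^ j * H0) →
      (∀ l' ∈ L, l'.1 ⬝ᵥ y - l'.2 (2 ^ j * H0) ≤ l.1 ⬝ᵥ y - l.2 (2 ^ j * H0)) →
        phi R ε l.1 y < 0 := fun j y hy => hdec _ (hge j) y (Or.inl hy)
  refine ⟨region R c L H0, hcomp H0 le_rfl, fun y hy => hy.1, fun x₀ hx₀ => ?_,
    fun k x hk hs hx0 => ?_, fun k hk hkc x₀ hx₀ => ?_⟩
  · obtain ⟨j, hj⟩ := hexh x₀ hx₀
    refine ⟨_, hcomp _ (hge j), fun y hy => hy.1, fun k x T hT hk hs hx0 t ht => ?_⟩
    exact (sol_of_isSolution hT hs).mem_region (hself j) hk (by rwa [hx0]) t ht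
  · obtain ⟨j, hj⟩ := hexh _ hx0
    have hdown : ∀ j : ℕ, ∀ a, 0 ≤ a → x a ∈ region R c L (2 ^ j * H0) →
        ∃ T, a ≤ T ∧ x T ∈ region R c L H0 := by
      intro j
      induction j with
      | zero => exact fun a _ ha => ⟨a, le_rfl, by simpa using ha⟩
      | succ j ih =>
        intro a ha0 ha
        have e : (2 : ℝ) ^ (j + 1) * H0 = 2 * (2 ^ j * H0) := by ring
        obtain ⟨T, hT, hTm⟩ := reach (hcomp _ (hge (j + 1))) (hself (j + 1))
          (H := 2 ^ j * H0) (fun y hy => hdec _ (hge j) y (Or.inr (e ▸ hy))) hk hs ha0 ha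
        obtain ⟨T', hT', hTm'⟩ := ih T (ha0.trans hT) hTm
        exact ⟨T', hT.trans hT', hTm'⟩
    obtain ⟨T₀, hT₀, hm⟩ := hdown j 0 le_rfl hj
    refine ⟨T₀, fun t ht => ?_⟩
    have h0 := hself 0
    simp only [pow_zero, one_mul] at h0
    exact ((sol_of_isSolution (hT₀.trans ht) (hs t (hT₀.trans ht))).restrict hT₀ ht
      le_rfl).mem_region h0 (fun s hs' => hk s (hT₀.trans hs'.1)) hm t (right_mem_Icc.2 ht)
  · obtain ⟨j, hj⟩ := hexh x₀ hx₀
    set k' : ℝ → Reaction d → ℝ := fun t => k (max t 0)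
    have hk'ε : ∀ t, ∀ r ∈ R, k' t r ∈ Icc ε ε⁻¹ := fun t r hr => hk _ (le_max_right _ _) r hr
    have hk' : ∀ t, 0 ≤ t → k' t = k t := fun t ht => by simp [k', max_eq_left ht]
    have hiff : ∀ (x : ℝ → Fin d → ℝ) (T : ℝ), 0 ≤ T →
        (IsSolution R k' x T ↔ IsSolution R k x T) := by
      intro x T hT
      have he : ∀ s, 0 ≤ s → field R (k' s) (x s) = field R (k s) (x s) := fun s hs => by
        rw [hk' s hs]
      have hi : IntervalIntegrable (fun s => field R (k' s) (x s)) volume 0 T ↔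
          IntervalIntegrable (fun s => field R (k s) (x s)) volume 0 T := by
        refine intervalIntegrable_congr fun s hs => he s ?_
        rw [uIoc_of_le hT] at hs
        exact hs.1.le
      have hint : ∀ t ∈ Icc 0 T, (∫ s in (0 : ℝ)..t, field R (k' s) (x s)) =
          ∫ s in (0 : ℝ)..t, field R (k s) (x s) := fun t ht => by
        refine intervalIntegral.integral_congr fun s hs => he s ?_
        rw [uIcc_of_le ht.1] at hs
        exact hs.1
      simp only [IsSolution, hi]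
      exact and_congr_right fun _ => and_congr_right fun _ =>
        forall₂_congr fun t ht => by rw [hint t ht]
    obtain ⟨w, hw0, hws, hwu⟩ := exists_unique_sol hε (hcomp _ (hge j))
      (fun y hy => hy.1.1) (fun x a b h ha => h.mem_region (hself j) (fun t _ => hk'ε t) ha)
      hk'ε (fun r hr => (hkc r hr).comp_continuous (continuous_id.max continuous_const)
        fun t => le_max_right t 0) hj
    exact ⟨w, hw0, fun T hT => (hiff _ T hT).1 (hws T hT),
      fun y T hT hy hy0 => hwu T y hT ((hiff y T hT).2 hy) hy0⟩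

end Vale.Agent.P072.Perm
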