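import Mathlib

/-! Thresholds and labels for the invariant region of a mass-action system.

A node records, for the coordinates already placed, a rounded logarithm `Xh` and a label `n`.
Vectors that are killed by the labels have small rounded pairing and all others a large one with
the same sign. -/

noncomputable section

namespace Vale.Agent.P072.Perm

open Finset

variable {d : ℕ}

abbrev V (d : ℕ) := Fin d → ℝ

/-- Elimination of coordinate `k`. -/
def elim (a b : V d) (k : Fin d) : V d := a k • b - b k • a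

/-- Iterated elimination closure, allowing transpositions of coordinates. -/
def clo (D : Finset (V d)) : ℕ → Finset (V d)
  | 0 => D
  | s + 1 => clo D s ∪ ((clo D s ×ˢ clo D s) ×ˢ ((univ ×ˢ univ) ×ˢ univ)).image fun q =>
      elim (q.1.1 ∘ Equiv.swap q.2.1.1 q.2.1.2) q.1.2 q.2.2

lemma clo_mono (D : Finset (V d)) {s t : ℕ} (h : s ≤ t) : clo D s ⊆ clo D t := by
  induction h with
  | refl => exact subset_rfl
  | step _ ih => exact ih.trans subset_union_left

lemma elim_mem_clo (D : Finset (V d)) {s : ℕ} {a b : V d} (ha : a ∈ clo D s) (hb : b ∈ clo D s)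
    (i j k : Fin d) : elim (a ∘ Equiv.swap i j) b k ∈ clo D (s + 1) :=
  mem_union_right _ (mem_image.2 ⟨((a, b), ((i, j), k)),
    mem_product.2 ⟨mem_product.2 ⟨ha, hb⟩, mem_univ _⟩, rfl⟩)

/-- The parameters: the directions and a base large against all their coefficients. -/
structure Par (d : ℕ) where
  D : Finset (V d)
  single_mem : ∀ k, Pi.single k 1 ∈ D
  diff_mem : ∀ k l, Pi.single k 1 - Pi.single l 1 ∈ D
  Λ : ℝ
  one_le : 1 ≤ Λ
  bound : ∀ v ∈ clo D d, (∑ i, |v i|) ≤ Λ ∧ ∀ i, v i ≠ 0 → 1 ≤ Λ * |v i|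
  K : ℕ
  K_big : 100 * Λ ^ 3 ≤ K

lemma exists_par (D₀ : Finset (V d)) : ∃ P : Par d, D₀ ⊆ P.D := by
  set D := D₀ ∪ univ.image (fun k : Fin d => Pi.single k (1 : ℝ)) ∪
    univ.image fun p : Fin d × Fin d => Pi.single p.1 (1 : ℝ) - Pi.single p.2 1
  set Λ : ℝ := 1 + ∑ v ∈ clo D d, ((∑ i, |v i|) + ∑ i, |v i|⁻¹) with hΛ
  have hnn : ∀ v ∈ clo D d, 0 ≤ (∑ i, |v i|) + ∑ i, |v i|⁻¹ := fun v _ => by positivity
  have h1 : 1 ≤ Λ := le_add_of_nonneg_right (sum_nonneg hnn)
  refine ⟨⟨D, fun k => by simp [D], fun k l => mem_union_right _ (mem_image.2 ⟨(k, l), mem_univ _,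
    rfl⟩), Λ, h1, fun v hv => ?_, ⌈100 * Λ ^ 3⌉₊, Nat.le_ceil _⟩,
    fun v hv => mem_union_left _ (mem_union_left _ hv)⟩
  have h := single_le_sum hnn hv
  have hA : 0 ≤ ∑ i, |v i| := sum_nonneg fun i _ => abs_nonneg _
  have hB : 0 ≤ ∑ i, |v i|⁻¹ := sum_nonneg fun i _ => by positivity
  refine ⟨by linarith, fun i hi => ?_⟩
  have hi' : 0 < |v i| := abs_pos.2 hi
  have : |v i|⁻¹ ≤ Λ := by
    have := single_le_sum (f := fun j => |v j|⁻¹) (fun j _ => by positivity) (mem_univ i)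
    linarith
  rwa [inv_le_iff_one_le_mul₀ hi'] at this

/-- A node. -/
structure St (d : ℕ) where
  J : Finset (Fin d)
  Xh : Fin d → ℤ
  n : V d
  a : ℕ

namespace St

/-- Number of coordinates still to be placed. -/
def rem (p : St d) : ℕ := d - p.J.card

lemma rem_pos {p : St d} {k : Fin d} (h : k ∉ p.J) : 0 < p.rem := by
  have : p.J.card < Fintype.card (Fin d) :=
    card_lt_card (t := univ) ⟨subset_univ _, fun hs => h (hs (mem_univ k))⟩
  simp [rem] at this ⊢; omega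

/-- The rounded logarithms as a real vector. -/
def X (p : St d) : V d := fun j => (p.Xh j : ℝ)

end St

/-- Zero labels have small, signed labels large pairing. -/
def Tri (s y A B : ℝ) : Prop :=
  (s = 0 → |y| ≤ A) ∧ (0 < s → B ≤ y) ∧ (s < 0 → y ≤ -B)

namespace Par

variable (P : Par d)

lemma one_le_K : (1 : ℝ) ≤ P.K := by
  have h := P.K_big
  have : (1 : ℝ) ≤ P.Λ ^ 3 := one_le_pow₀ P.one_le
  linarith

lemma K_pos : (0 : ℝ) < P.K := lt_of_lt_of_le one_pos P.one_le_K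

lemma pow_le {a b : ℕ} (h : a ≤ b) : (P.K : ℝ) ^ a ≤ (P.K : ℝ) ^ b :=
  pow_le_pow_right₀ P.one_le_K h

/-- Scaling by a factor at most `K` costs one exponent. -/
lemma mul_pow_le {c : ℝ} {a b : ℕ} (hc : c ≤ P.K) (h : a + 1 ≤ b) :
    c * (P.K : ℝ) ^ a ≤ (P.K : ℝ) ^ b :=
  calc c * (P.K : ℝ) ^ a ≤ P.K * (P.K : ℝ) ^ a := by gcongr
    _ = (P.K : ℝ) ^ (a + 1) := by rw [pow_succ]; ring
    _ ≤ _ := P.pow_le h

lemma le_K : 100 ≤ (P.K : ℝ) ∧ P.Λ ≤ P.K ∧ 100 * P.Λ ^ 2 ≤ P.K := by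
  have h := P.K_big
  have h1 := P.one_le
  refine ⟨?_, ?_, ?_⟩ <;> nlinarith [one_le_pow₀ (n := 3) h1, sq_nonneg (P.Λ - 1)]

/-- Window half-width at exponent `a` with `r` coordinates left. -/
def wid (a r : ℕ) : ℤ := (P.K : ℤ) ^ (a + 8 ^ (r - 1) + 1)

lemma wid_cast (a r : ℕ) : (P.wid a r : ℝ) = (P.K : ℝ) ^ (a + 8 ^ (r - 1) + 1) := by
  simp [wid]

lemma one_le_wid (a r : ℕ) : 1 ≤ P.wid a r := by
  have h : (1 : ℝ) ≤ (P.wid a r : ℝ) := by rw [P.wid_cast]; exact one_le_pow₀ P.one_le_K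
  exact_mod_cast h

/-- Exponent after a window. -/
def next (a r : ℕ) : ℕ := a + 8 ^ (r - 1) + 2

lemma eight_pow {r : ℕ} (hr : 0 < r) : 2 * 8 ^ (r - 1) + 3 ≤ 8 ^ r := by
  obtain ⟨s, rfl⟩ := Nat.exists_eq_add_of_le' hr
  have : 1 ≤ 8 ^ s := Nat.one_le_pow _ _ (by norm_num)
  simp [pow_succ]; omega

/-- The invariant of a node. -/
def Inv (p : St d) : Prop :=
  1 ≤ p.a ∧ (∀ j, j ∉ p.J → p.Xh j = 0 ∧ p.n j = 0) ∧
    ∀ v ∈ clo P.D p.rem, (∀ j, v j ≠ 0 → j ∈ p.J) →
      Tri (p.n ⬝ᵥ v) (p.X ⬝ᵥ v) ((P.K : ℝ) ^ p.a) ((P.K : ℝ) ^ (p.a + 8 ^ p.rem))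

/-- Thresholds: position and label. -/
def thr (p : St d) : Finset (ℝ × ℝ) := by
  classical
  exact (((clo P.D (p.rem - 1)) ×ˢ p.Jᶜ).filter fun q =>
      (∀ j, q.1 j ≠ 0 → j = q.2 ∨ j ∈ p.J) ∧ q.1 q.2 ≠ 0).image
    fun q => (-(p.X ⬝ᵥ q.1) / q.1 q.2, -(p.n ⬝ᵥ q.1) / q.1 q.2)

lemma mem_thr {p : St d} {q : ℝ × ℝ} :
    q ∈ P.thr p ↔ ∃ v ∈ clo P.D (p.rem - 1), ∃ k ∉ p.J, (∀ j, v j ≠ 0 → j = k ∨ j ∈ p.J) ∧
      v k ≠ 0 ∧ (-(p.X ⬝ᵥ v) / v k, -(p.n ⬝ᵥ v) / v k) = q := by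
  simp only [thr, mem_image, mem_filter, mem_product, mem_compl, Prod.exists]
  grind

lemma thr_of {p : St d} {v : V d} {k : Fin d} (hv : v ∈ clo P.D (p.rem - 1)) (hk : k ∉ p.J)
    (hs : ∀ j, v j ≠ 0 → j = k ∨ j ∈ p.J) (hvk : v k ≠ 0) :
    (-(p.X ⬝ᵥ v) / v k, -(p.n ⬝ᵥ v) / v k) ∈ P.thr p :=
  P.mem_thr.2 ⟨v, hv, k, hk, hs, hvk, rfl⟩

variable {P} {p : St d}

lemma Inv.zero_thr (hp : P.Inv p) {k : Fin d} (hk : k ∉ p.J) : (0, 0) ∈ P.thr p := by
  have h := P.thr_of (clo_mono P.D (Nat.zero_le _) (P.single_mem k)) hk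
    (fun j hj => Or.inl (by by_contra hne; simp [hne] at hj)) (by simp)
  simpa [St.X, (hp.2.1 k hk).1, (hp.2.1 k hk).2] using h

/-- A placed coordinate gives a threshold. -/
lemma Inv.coord_thr (hp : P.Inv p) {k j : Fin d} (hk : k ∉ p.J) (hj : j ∈ p.J) :
    ((p.Xh j : ℝ), p.n j) ∈ P.thr p := by
  have hkj : k ≠ j := fun h => hk (h ▸ hj)
  have h := P.thr_of (clo_mono P.D (Nat.zero_le _) (P.diff_mem k j)) hk (fun l hl => ?_)
    (by simp [hkj])
  · simpa [St.X, dotProduct_sub, (hp.2.1 k hk).1, (hp.2.1 k hk).2, hkj] using h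
  · by_cases h : l = k
    · exact Or.inl h
    · by_cases h' : l = j
      · exact Or.inr (h' ▸ hj)
      · simp [h, h'] at hl

/-- Two thresholds are close with equal labels or far apart in the order of their labels. -/
lemma Inv.sep (hp : P.Inv p) {q q' : ℝ × ℝ} (hq : q ∈ P.thr p) (hq' : q' ∈ P.thr p) :
    (q.2 = q'.2 → |q.1 - q'.1| ≤ P.Λ ^ 2 * (P.K : ℝ) ^ p.a) ∧
      (q.2 < q'.2 → (P.K : ℝ) ^ (p.a + 8 ^ p.rem) ≤ P.Λ ^ 2 * (q'.1 - q.1)) := by
  obtain ⟨v, hv, k, hk, hs, hvk, rfl⟩ := P.mem_thr.1 hq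
  obtain ⟨v', hv', k', hk', hs', hvk', rfl⟩ := P.mem_thr.1 hq'
  have hr := St.rem_pos hk
  have hrd : p.rem ≤ d := Nat.sub_le _ _
  set u := elim (v' ∘ Equiv.swap k k') v k with hu
  have hmem : u ∈ clo P.D p.rem := by
    have h := elim_mem_clo P.D hv' hv k k' k
    rwa [Nat.sub_add_cancel hr] at h
  have hsupp : ∀ j, u j ≠ 0 → j ∈ p.J := by
    intro j hj
    by_contra hjJ
    apply hj
    by_cases hjk : j = k
    · subst hjk; simp [u, elim]; ring
    have h1 : v j = 0 := by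
      by_contra hne
      exact (hs j hne).elim hjk hjJ
    have h2 : v' (Equiv.swap k k' j) = 0 := by
      by_contra hne
      rcases hs' _ hne with h | h
      · rw [Equiv.swap_apply_eq_iff, Equiv.swap_apply_right] at h
        exact hjk h
      · by_cases hjk' : j = k'
        · rw [hjk', Equiv.swap_apply_right] at h; exact hk h
        · rw [Equiv.swap_apply_of_ne_of_ne hjk hjk'] at h; exact hjJ h
    simp [u, elim, h1, h2]
  have hdot : ∀ w : V d, w k = 0 → w k' = 0 → w ⬝ᵥ u = v' k' * (w ⬝ᵥ v) - v k * (w ⬝ᵥ v') := by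
    intro w h1 h2
    have e : w ⬝ᵥ (v' ∘ Equiv.swap k k') = w ⬝ᵥ v' := by
      simp only [dotProduct]
      refine Fintype.sum_equiv (Equiv.swap k k') _ _ fun j => ?_
      rcases eq_or_ne j k with rfl | hjk
      · simp [h1, h2]
      · rcases eq_or_ne j k' with rfl | hjk'
        · simp [h1, h2]
        · rw [Function.comp_apply, Equiv.swap_apply_of_ne_of_ne hjk hjk']
    simp only [u, elim, dotProduct_sub, dotProduct_smul, smul_eq_mul, e, Function.comp_apply,
      Equiv.swap_apply_left]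
  obtain ⟨hX, hn⟩ := hp.2.1 k hk
  obtain ⟨hX', hn'⟩ := hp.2.1 k' hk'
  obtain ⟨hA, hB, hC⟩ := hp.2.2 u hmem hsupp
  rw [hdot p.n hn hn', hdot p.X (by simp [St.X, hX]) (by simp [St.X, hX'])] at hA hB hC
  set θ := -(p.X ⬝ᵥ v) / v k
  set θ' := -(p.X ⬝ᵥ v') / v' k'
  set t := -(p.n ⬝ᵥ v) / v k
  set t' := -(p.n ⬝ᵥ v') / v' k'
  have e1 : v' k' * (p.n ⬝ᵥ v) - v k * (p.n ⬝ᵥ v') = (v k * v' k') * (t' - t) := by
    simp only [t, t']; field_simp; ring
  have e2 : v' k' * (p.X ⬝ᵥ v) - v k * (p.X ⬝ᵥ v') = (v k * v' k') * (θ' - θ) := by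
    simp only [θ, θ']; field_simp; ring
  rw [e1, e2] at hA hB hC
  set Q := v k * v' k'
  have bv := P.bound v (clo_mono P.D (by omega) hv)
  have bv' := P.bound v' (clo_mono P.D (by omega) hv')
  have hQ1 : |Q| ≤ P.Λ ^ 2 := by
    rw [abs_mul, sq]
    exact mul_le_mul ((single_le_sum (f := fun i => |v i|) (fun i _ => abs_nonneg _)
      (mem_univ k)).trans bv.1) ((single_le_sum (f := fun i => |v' i|) (fun i _ => abs_nonneg _)
      (mem_univ k')).trans bv'.1) (abs_nonneg _) (zero_le_one.trans P.one_le)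
  have hQ2 : 1 ≤ P.Λ ^ 2 * |Q| := by
    rw [abs_mul]
    nlinarith [bv.2 k hvk, bv'.2 k' hvk']
  have hpow : 0 < (P.K : ℝ) ^ (p.a + 8 ^ p.rem) := pow_pos P.K_pos _
  refine ⟨fun h => ?_, fun h => ?_⟩
  · have h0 := hA (by simp [show t = t' from h])
    rw [abs_mul] at h0
    calc |θ - θ'| ≤ (P.Λ ^ 2 * |Q|) * |θ - θ'| := le_mul_of_one_le_left (abs_nonneg _) hQ2
      _ = P.Λ ^ 2 * (|Q| * |θ' - θ|) := by rw [abs_sub_comm θ θ']; ring
      _ ≤ _ := by gcongr
  · have hlt : t < t' := h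
    rcases lt_trichotomy Q 0 with hQ | hQ | hQ
    · have h0 := hC (mul_neg_of_neg_of_pos hQ (sub_pos.2 hlt))
      rw [abs_of_neg hQ] at hQ1
      have hθ : 0 < θ' - θ := by
        by_contra hh; push Not at hh
        nlinarith [mul_nonneg_of_nonpos_of_nonpos hQ.le hh]
      show _ ≤ P.Λ ^ 2 * (θ' - θ)
      nlinarith
    · rw [hQ] at hQ2; simp at hQ2; linarith
    · have h0 := hB (mul_pos hQ (sub_pos.2 hlt))
      rw [abs_of_pos hQ] at hQ1
      have hθ : 0 < θ' - θ := by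
        by_contra hh; push Not at hh
        nlinarith [mul_nonpos_of_nonneg_of_nonpos hQ.le hh]
      show _ ≤ P.Λ ^ 2 * (θ' - θ)
      nlinarith

variable (P)

/-- The position lies in a window. -/
def Win (p : St d) (j : ℤ) : Prop := ∃ q ∈ P.thr p, |(j : ℝ) - q.1| ≤ P.wid p.a p.rem

/-- A bound on the threshold labels. -/
def lbd (p : St d) : ℝ := 1 + ∑ q ∈ P.thr p, |q.2|

def lo (p : St d) (j : ℤ) : ℝ :=
  (insert (-P.lbd p) (((P.thr p).filter fun q : ℝ × ℝ => q.1 < (j : ℝ)).image Prod.snd)).max'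
    (insert_nonempty _ _)

def hi (p : St d) (j : ℤ) : ℝ :=
  (insert (P.lbd p) (((P.thr p).filter fun q : ℝ × ℝ => (j : ℝ) < q.1).image Prod.snd)).min'
    (insert_nonempty _ _)

/-- A strictly increasing weight in `(0,1)`. -/
def wt (j : ℤ) : ℝ := 1 / 2 + Real.arctan j / Real.pi

open Classical in
/-- The label of a position. -/
def lab (p : St d) (j : ℤ) : ℝ :=
  if h : P.Win p j then h.choose.2 else P.lo p j + (P.hi p j - P.lo p j) * wt j

variable {P}

lemma wt_pos (j : ℤ) : 0 < wt j := by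
  have h := Real.neg_pi_div_two_lt_arctan j
  have hπ := Real.pi_pos
  rw [wt, div_add_div _ _ two_ne_zero hπ.ne']
  exact div_pos (by linarith) (by positivity)

lemma wt_lt_one (j : ℤ) : wt j < 1 := by
  have h := Real.arctan_lt_pi_div_two j
  have hπ := Real.pi_pos
  rw [wt, div_add_div _ _ two_ne_zero hπ.ne', div_lt_one (by positivity)]
  linarith

lemma wt_lt {i j : ℤ} (h : i < j) : wt i < wt j := by
  have hc : (i : ℝ) < j := by exact_mod_cast h
  have h1 := Real.arctan_strictMono hc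
  have hπ := Real.pi_pos
  simp only [wt, add_lt_add_iff_left]
  gcongr

/-- The windows of different labels are far apart. -/
lemma wid_gap {a r : ℕ} (hr : 0 < r) :
    4 * P.Λ ^ 2 * (P.wid a r : ℝ) ≤ (P.K : ℝ) ^ (a + 8 ^ r) ∧
      4 * P.Λ ^ 2 * (P.K : ℝ) ^ a ≤ P.wid a r ∧
      4 * P.Λ ^ 3 * (P.K : ℝ) ^ (next a r + 8 ^ (r - 1)) ≤ (P.K : ℝ) ^ (a + 8 ^ r) := by
  have hK := P.K_big
  have h1 := P.one_le
  have hp := eight_pow hr
  rw [P.wid_cast]
  exact ⟨P.mul_pow_le (by nlinarith [P.le_K.2.2]) (by omega),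
    P.mul_pow_le (by nlinarith [P.le_K.2.2]) (by omega),
    P.mul_pow_le (by nlinarith) (by simp only [next]; omega)⟩

variable (hp : P.Inv p) (hr : 0 < p.rem)
include hp hr

/-- Two windows at positions close to each other carry the same label. -/
lemma thr_eq_of_near {q q' : ℝ × ℝ} (hq : q ∈ P.thr p) (hq' : q' ∈ P.thr p)
    (h : q'.1 - q.1 ≤ 3 * P.wid p.a p.rem) : q'.2 ≤ q.2 := by
  by_contra hlt; push Not at hlt
  have h1 := (hp.sep hq hq').2 hlt
  have h2 := (P.wid_gap (a := p.a) hr).1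
  have h3 : P.Λ ^ 2 * (q'.1 - q.1) ≤ P.Λ ^ 2 * (3 * P.wid p.a p.rem) :=
    mul_le_mul_of_nonneg_left h (sq_nonneg _)
  have h4 : (0 : ℝ) < P.Λ ^ 2 * P.wid p.a p.rem := by
    have := P.one_le_wid p.a p.rem
    have : (0 : ℝ) < P.wid p.a p.rem := by exact_mod_cast this
    have := P.one_le
    positivity
  nlinarith

lemma lab_win {q : ℝ × ℝ} (hq : q ∈ P.thr p) {j : ℤ}
    (h : |(j : ℝ) - q.1| ≤ P.wid p.a p.rem) : P.lab p j = q.2 := by
  have hw : P.Win p j := ⟨q, hq, h⟩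
  rw [lab, dif_pos hw]
  obtain ⟨h1, h2⟩ := hw.choose_spec
  have hw0 : (0 : ℝ) ≤ P.wid p.a p.rem := le_trans (abs_nonneg _) h
  rw [abs_le] at h h2
  exact le_antisymm (thr_eq_of_near hp hr hq h1 (by linarith))
    (thr_eq_of_near hp hr h1 hq (by linarith))

omit hp hr in
lemma out_win {j : ℤ} (h : ¬ P.Win p j) {q : ℝ × ℝ} (hq : q ∈ P.thr p) :
    (P.wid p.a p.rem : ℝ) < |(j : ℝ) - q.1| :=
  lt_of_not_ge fun hle => h ⟨q, hq, hle⟩

/-- Outside the windows the interval of admissible labels is nondegenerate. -/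
lemma lo_lt_hi {j : ℤ} (h : ¬ P.Win p j) : P.lo p j < P.hi p j := by
  classical
  have hb : ∀ q ∈ P.thr p, -P.lbd p < q.2 ∧ q.2 < P.lbd p := by
    intro q hq
    have := single_le_sum (f := fun q : ℝ × ℝ => |q.2|) (fun q _ => abs_nonneg _) hq
    rw [lbd]
    constructor <;> linarith [le_abs_self q.2, neg_abs_le q.2]
  have hB : 0 < P.lbd p := add_pos_of_pos_of_nonneg one_pos (sum_nonneg fun _ _ => abs_nonneg _)
  rw [lo, hi, max'_lt_iff]
  intro y hy
  rw [lt_min'_iff]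
  intro z hz
  simp only [mem_insert, mem_image, mem_filter] at hy hz
  rcases hy with rfl | ⟨q, ⟨hq, hqj⟩, rfl⟩ <;> rcases hz with rfl | ⟨q', ⟨hq', hqj'⟩, rfl⟩
  · linarith
  · exact (hb q' hq').1
  · exact (hb q hq).2
  · have h1 := out_win h hq
    have h2 := out_win h hq'
    rw [abs_of_pos (sub_pos.2 hqj)] at h1
    rw [abs_of_neg (sub_neg.2 hqj')] at h2
    by_contra hle; push Not at hle
    rcases hle.eq_or_lt with e | hlt
    · have h3 := (hp.sep hq hq').1 e.symm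
      have h4 := (P.wid_gap (a := p.a) hr).2.1
      rw [abs_sub_comm, abs_of_pos (by linarith)] at h3
      have : (0 : ℝ) ≤ P.Λ ^ 2 * (P.K : ℝ) ^ p.a := by positivity
      linarith
    · have h3 := (hp.sep hq' hq).2 hlt
      have hneg : P.Λ ^ 2 * (q.1 - q'.1) ≤ 0 :=
        mul_nonpos_of_nonneg_of_nonpos (sq_nonneg _) (by linarith)
      linarith [pow_pos P.K_pos (p.a + 8 ^ p.rem)]

lemma lab_out {j : ℤ} (h : ¬ P.Win p j) : P.lo p j < P.lab p j ∧ P.lab p j < P.hi p j := by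
  have := lo_lt_hi hp hr h
  rw [lab, dif_neg h]
  constructor <;> nlinarith [wt_pos j, wt_lt_one j]

omit hp hr in
lemma le_lo {j : ℤ} {q : ℝ × ℝ} (hq : q ∈ P.thr p) (h : q.1 < j) : q.2 ≤ P.lo p j :=
  le_max' _ _ (mem_insert_of_mem (mem_image_of_mem _ (mem_filter.2 ⟨hq, h⟩)))

omit hp hr in
lemma hi_le {j : ℤ} {q : ℝ × ℝ} (hq : q ∈ P.thr p) (h : (j : ℝ) < q.1) : P.hi p j ≤ q.2 :=
  min'_le _ _ (mem_insert_of_mem (mem_image_of_mem _ (mem_filter.2 ⟨hq, h⟩)))

/-- Position of a label relative to a threshold outside the windows. -/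
lemma lab_out_cmp {j : ℤ} (h : ¬ P.Win p j) {q : ℝ × ℝ} (hq : q ∈ P.thr p) :
    (q.2 < P.lab p j ∧ q.1 + P.wid p.a p.rem < j) ∨
      (P.lab p j < q.2 ∧ j + P.wid p.a p.rem < q.1) := by
  have h1 := out_win h hq
  obtain ⟨a1, a2⟩ := lab_out hp hr h
  rcases le_total q.1 (j : ℝ) with hle | hle
  · rw [abs_of_nonneg (sub_nonneg.2 hle)] at h1
    have hlt : q.1 < j := by
      have := (P.one_le_wid p.a p.rem)
      have : (1 : ℝ) ≤ P.wid p.a p.rem := by exact_mod_cast this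
      linarith
    exact Or.inl ⟨(le_lo hq hlt).trans_lt a1, by linarith⟩
  · rw [abs_of_nonpos (sub_nonpos.2 hle)] at h1
    have hlt : (j : ℝ) < q.1 := by
      have := (P.one_le_wid p.a p.rem)
      have : (1 : ℝ) ≤ P.wid p.a p.rem := by exact_mod_cast this
      linarith
    exact Or.inr ⟨a2.trans_le (hi_le hq hlt), by linarith⟩

/-- Labels increase; equal labels are at nearby positions. -/
lemma lab_mono : Monotone (P.lab p) := by
  intro i j hij
  rcases hij.eq_or_lt with rfl | hlt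
  · exact le_rfl
  have hc : (i : ℝ) < j := by exact_mod_cast hlt
  have hw : (0 : ℝ) ≤ P.wid p.a p.rem := by
    have := P.one_le_wid p.a p.rem
    exact_mod_cast le_trans zero_le_one this
  by_cases hi' : P.Win p i
  · obtain ⟨q, hq, hqi⟩ := hi'
    rw [lab_win hp hr hq hqi]
    rw [abs_le] at hqi
    by_cases hj : P.Win p j
    · obtain ⟨q', hq', hqj⟩ := hj
      rw [lab_win hp hr hq' hqj]
      rw [abs_le] at hqj
      exact thr_eq_of_near hp hr hq' hq (by linarith)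
    · rcases lab_out_cmp hp hr hj hq with h | h
      · exact h.1.le
      · linarith [h.2]
  · by_cases hj : P.Win p j
    · obtain ⟨q', hq', hqj⟩ := hj
      rw [lab_win hp hr hq' hqj]
      rw [abs_le] at hqj
      rcases lab_out_cmp hp hr hi' hq' with h | h
      · linarith [h.2]
      · exact h.1.le
    · rw [lab, dif_neg hi', lab, dif_neg hj]
      have h1 : P.lo p i ≤ P.lo p j := max'_subset _ (insert_subset_insert _
        (image_subset_image (monotone_filter_right _ fun q _ hq => lt_trans hq hc)))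
      have h2 : P.hi p i ≤ P.hi p j := min'_subset _ (insert_subset_insert _
        (image_subset_image (monotone_filter_right _ fun q _ hq => lt_trans hc hq)))
      have h3 := lo_lt_hi hp hr hi'
      nlinarith [wt_lt hlt, wt_pos i, wt_lt_one i, wt_pos j, wt_lt_one j]

open Classical in
/-- The spread of a label: positions with the label of `i` are within this distance. -/
def spread (P : Par d) (p : St d) (i : ℤ) : ℤ :=
  if P.Win p i then 4 * P.wid p.a p.rem else 0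

lemma lab_eq_near {i j : ℤ} (h : P.lab p i = P.lab p j) : |i - j| ≤ spread P p i := by
  classical
  by_cases hi' : P.Win p i
  · obtain ⟨q, hq, hqi⟩ := hi'
    have hl := lab_win hp hr hq hqi
    by_cases hj : P.Win p j
    · obtain ⟨q', hq', hqj⟩ := hj
      have he : q.2 = q'.2 := by rw [← hl, h, lab_win hp hr hq' hqj]
      have h1 := (hp.sep hq hq').1 he
      have h2 := (P.wid_gap (a := p.a) hr).2.1
      rw [spread, if_pos ⟨q, hq, hqi⟩]
      have h3 : |((i - j : ℤ) : ℝ)| ≤ ((4 * P.wid p.a p.rem : ℤ) : ℝ) := by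
        have h4 : (0 : ℝ) ≤ P.Λ ^ 2 * (P.K : ℝ) ^ p.a := by positivity
        rw [abs_le] at hqi hqj h1 ⊢
        push_cast
        constructor <;> linarith
      exact_mod_cast h3
    · rcases lab_out_cmp hp hr hj hq with hh | hh <;>
        exact absurd (hl.symm.trans h) (by linarith [hh.1])
  · rw [spread, if_neg hi']
    by_cases hj : P.Win p j
    · obtain ⟨q', hq', hqj⟩ := hj
      have hl := lab_win hp hr hq' hqj
      rcases lab_out_cmp hp hr hi' hq' with hh | hh <;>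
        exact absurd (h.trans hl) (by linarith [hh.1])
    · by_contra hne
      have hne' : i ≠ j := fun e => hne (by simp [e])
      rcases lt_or_gt_of_ne hne' with hlt | hlt
      all_goals
        first
          | (have h3 := lo_lt_hi hp hr hi'
             have hc : (i : ℝ) < j := by exact_mod_cast hlt
             have h1 : P.lo p i ≤ P.lo p j := max'_subset _ (insert_subset_insert _
               (image_subset_image (monotone_filter_right _ fun q _ hq => lt_trans hq hc)))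
             have h2 : P.hi p i ≤ P.hi p j := min'_subset _ (insert_subset_insert _
               (image_subset_image (monotone_filter_right _ fun q _ hq => lt_trans hc hq)))
             rw [lab, dif_neg hi', lab, dif_neg hj] at h
             nlinarith [wt_lt hlt, wt_pos i, wt_lt_one i, wt_pos j, wt_lt_one j])
          | (have h3 := lo_lt_hi hp hr hj
             have hc : (j : ℝ) < i := by exact_mod_cast hlt
             have h1 : P.lo p j ≤ P.lo p i := max'_subset _ (insert_subset_insert _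
               (image_subset_image (monotone_filter_right _ fun q _ hq => lt_trans hq hc)))
             have h2 : P.hi p j ≤ P.hi p i := min'_subset _ (insert_subset_insert _
               (image_subset_image (monotone_filter_right _ fun q _ hq => lt_trans hc hq)))
             rw [lab, dif_neg hi', lab, dif_neg hj] at h
             nlinarith [wt_lt hlt, wt_pos i, wt_lt_one i, wt_pos j, wt_lt_one j])

omit hp hr in
open Classical in
/-- Exponent after placing the first coordinate at `i`. -/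
def first (P : Par d) (p : St d) (i : ℤ) : ℕ := if P.Win p i then next p.a p.rem else p.a

omit hp hr in
/-- What a position and label must satisfy to be added to a node. -/
def Good (P : Par d) (p : St d) (X : ℤ) (t : ℝ) (a' : ℕ) : Prop :=
  ∀ q ∈ P.thr p, (t = q.2 → P.Λ * |(X : ℝ) - q.1| ≤ (P.K : ℝ) ^ a') ∧
    (q.2 < t → P.Λ * (P.K : ℝ) ^ (a' + 8 ^ (p.rem - 1)) ≤ X - q.1) ∧
    (t < q.2 → P.Λ * (P.K : ℝ) ^ (a' + 8 ^ (p.rem - 1)) ≤ q.1 - X)

/-- A threshold of label `t` near `X` makes `(X, t)` admissible. -/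
lemma good_of_near {q₀ : ℝ × ℝ} (hq₀ : q₀ ∈ P.thr p) {X : ℤ}
    (hX : |(X : ℝ) - q₀.1| ≤ P.wid p.a p.rem) : Good P p X q₀.2 (next p.a p.rem) := by
  intro q hq
  obtain ⟨hg1, hg2, hg3⟩ := P.wid_gap (a := p.a) hr
  have hΛ := P.one_le
  have hw : (0 : ℝ) ≤ P.wid p.a p.rem := le_trans (abs_nonneg _) hX
  rw [abs_le] at hX
  have hpos : 0 < P.Λ ^ 2 := by positivity
  have far : ∀ z : ℝ, (P.K : ℝ) ^ (p.a + 8 ^ p.rem) ≤ P.Λ ^ 2 * z →
      P.Λ * (P.K : ℝ) ^ (next p.a p.rem + 8 ^ (p.rem - 1)) ≤ z - P.wid p.a p.rem := by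
    intro z hz
    refine le_of_mul_le_mul_left (a := 2 * P.Λ ^ 2) ?_ (by positivity)
    nlinarith
  refine ⟨fun he => ?_, fun hlt => ?_, fun hlt => ?_⟩
  · have h1 := (hp.sep hq₀ hq).1 he
    rw [abs_le] at h1
    have h2 : |(X : ℝ) - q.1| ≤ 2 * P.wid p.a p.rem := by
      have : (0 : ℝ) ≤ P.Λ ^ 2 * (P.K : ℝ) ^ p.a := by positivity
      rw [abs_le]
      constructor <;> linarith
    calc P.Λ * |(X : ℝ) - q.1| ≤ P.Λ * (2 * P.wid p.a p.rem) := by gcongr
      _ = 2 * P.Λ * (P.K : ℝ) ^ (p.a + 8 ^ (p.rem - 1) + 1) := by rw [P.wid_cast]; ring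
      _ ≤ _ := P.mul_pow_le (by nlinarith [P.le_K.2.2, sq_nonneg (P.Λ - 1)])
          (by simp only [next]; omega)
  · have := far _ ((hp.sep hq hq₀).2 hlt)
    linarith
  · have := far _ ((hp.sep hq₀ hq).2 hlt)
    linarith

/-- Every position is admissible with its label. -/
lemma good_lab (j : ℤ) : Good P p j (P.lab p j) (first P p j) := by
  classical
  by_cases hj : P.Win p j
  · obtain ⟨q, hq, hqj⟩ := hj
    rw [lab_win hp hr hq hqj, first, if_pos ⟨q, hq, hqj⟩]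
    exact good_of_near hp hr hq hqj
  · intro q hq
    rw [first, if_neg hj]
    have hΛ := P.one_le
    have h2 : P.Λ * (P.K : ℝ) ^ (p.a + 8 ^ (p.rem - 1)) ≤ P.wid p.a p.rem := by
      rw [P.wid_cast]; exact P.mul_pow_le P.le_K.2.1 le_rfl
    rcases lab_out_cmp hp hr hj hq with h | h <;>
      refine ⟨fun he => absurd he (by linarith [h.1]), fun hlt => ?_, fun hlt => ?_⟩ <;>
      linarith [h.1, h.2]

end Par

end Vale.Agent.P072.Perm
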