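import Vale.Agent.P072.Perm.Tree

/-! A label vector of largest value rounds the logarithms correctly. -/

noncomputable section

namespace Vale.Agent.P072.Perm.Par

open Finset

variable {d : ℕ} {P : Par d} {p : St d}

/-- Labels are bounded by `R` and two different ones differ by at least `δ`. -/
structure Bd (P : Par d) (p : St d) (cap : ℤ) (δ R : ℝ) : Prop where
  pos : 0 < δ
  le_one : δ ≤ 1
  nonneg : 0 ≤ R
  abs_le : ∀ f c, P.Comp p cap f c → ∀ k ∉ p.J, |f.n k| ≤ R
  gap : ∀ f c g c', P.Comp p cap f c → P.Comp p cap g c' → ∀ k ∉ p.J, ∀ k' ∉ p.J,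
    f.n k < g.n k' → δ ≤ g.n k' - f.n k

/-- The scale is large against the labels. -/
def Big (d : ℕ) (H δ R : ℝ) : Prop := 0 ≤ H ∧ 2 * (R + 1) * (d + 1) < δ * Real.exp (H / 2)

/-- The value of a completion. -/
def val (H R : ℝ) (ξ : V d) (p f : St d) (c : ℝ → ℝ) : ℝ :=
  ∑ k ∈ p.Jᶜ, (f.n k + R) * Real.exp (H * ξ k) - c H

/-- A completion of largest value. -/
def IsMax (P : Par d) (H R : ℝ) (ξ : V d) (p : St d) (cap : ℤ) (f : St d) (c : ℝ → ℝ) : Prop :=
  P.Comp p cap f c ∧ ∀ g c', P.Comp p cap g c' → val H R ξ p g c' ≤ val H R ξ p f c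

lemma wB_step (i : ℤ) {m : ℕ} (hm : 1 ≤ m) :
    (P.K : ℤ) * P.wB p i m ≤ P.wB p i (m + 1) := by
  obtain ⟨n, rfl⟩ := Nat.exists_eq_add_of_le' hm
  have h : ((P.K : ℝ)) * (P.wB p i (n + 1) : ℝ) ≤ (P.wB p i (n + 2) : ℝ) := by
    simp only [wB, P.wid_cast, aB, next]
    exact P.mul_pow_le le_rfl (by
      generalize 8 ^ (p.rem - (n + 1) - 1) = z
      generalize 8 ^ (p.rem - (n + 2) - 1) = z'
      omega)
  exact_mod_cast h

lemma wB_pos (i : ℤ) (m : ℕ) : 1 ≤ P.wB p i m := P.one_le_wid _ _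

lemma hundred_le_K (P : Par d) : (100 : ℤ) ≤ P.K := by
  exact_mod_cast P.le_K.1

lemma wB_mono (i : ℤ) {m n : ℕ} (hm : 1 ≤ m) (h : m ≤ n) : P.wB p i m ≤ P.wB p i n := by
  induction h with
  | refl => exact le_rfl
  | @step n hn ih =>
    have h1 := wB_step (P := P) (p := p) i (m := n) (hm.trans hn)
    have h2 := wB_pos (P := P) (p := p) i n
    nlinarith [hundred_le_K P]

lemma aB_mono (i : ℤ) {m n : ℕ} (h : m ≤ n) : P.aB p i m ≤ P.aB p i n := by
  induction h with
  | refl => exact le_rfl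
  | @step n hn ih =>
    refine ih.trans ?_
    match n with
    | 0 => simpa [aB] using (first_le_next (P := P) (p := p) i).1
    | m + 1 => simp only [aB, next]; generalize 8 ^ (p.rem - (m + 1) - 1) = z; omega

lemma first_pos_spec (hp : P.Inv p) (hr : 0 < p.rem) {i : ℤ} (hi : -P.M ≤ i) :
    -P.M ≤ P.first_pos p i ∧ P.first_pos p i ≤ i ∧ i - spread P p i ≤ P.first_pos p i := by
  classical
  have hne : ((Finset.Icc (-P.M) i).filter fun j => P.lab p j = P.lab p i).Nonempty :=
    ⟨i, by simp [hi]⟩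
  have hm := Finset.min'_mem _ hne
  rw [first_pos, dif_pos hne]
  simp only [mem_filter, Finset.mem_Icc] at hm
  refine ⟨hm.1.1, hm.1.2, ?_⟩
  have := abs_le.1 (lab_eq_near hp hr hm.2.symm)
  linarith [this.2]

lemma spread_le_wB (hr : 0 < p.rem) (i : ℤ) : spread P p i + 2 ≤ 2 * P.wB p i 1 := by
  classical
  rw [spread]
  split_ifs with hw
  · have h : (P.K : ℝ) * (P.wid p.a p.rem : ℝ) ≤ (P.wB p i 1 : ℝ) := by
      simp only [wB, aB, first, if_pos hw, P.wid_cast, next]
      exact P.mul_pow_le le_rfl (by generalize 8 ^ (p.rem - 1 - 1) = z; omega)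
    have h' : (P.K : ℤ) * P.wid p.a p.rem ≤ P.wB p i 1 := by exact_mod_cast h
    nlinarith [hundred_le_K P, P.one_le_wid p.a p.rem]
  · linarith [wB_pos (P := P) (p := p) i 1]

lemma edge_le (hp : P.Inv p) (hr : 0 < p.rem) {i : ℤ} (hi : -P.M ≤ i) (q : ℕ) :
    P.edge p i q ≤ i := by
  rw [edge]
  split_ifs
  · exact (first_pos_spec hp hr hi).2.1
  · exact max_le hi (by linarith [wB_pos (P := P) (p := p) i (q - 1)])

/-- The members after the first `m` pay below the edge of member `m`. -/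
lemma below_edge (hp : P.Inv p) (hr : 0 < p.rem) {i : ℤ} (hi : -P.M ≤ i) {m : ℕ} (hm : 1 ≤ m)
    (he : -P.M < P.edge p i m) : i - 2 * P.wB p i m + 1 ≤ P.edge p i m := by
  rw [edge] at he ⊢
  split_ifs at he ⊢ with h
  · subst h
    linarith [(first_pos_spec hp hr hi).2.2, spread_le_wB (P := P) (p := p) hr i]
  · have h1 := wB_step (P := P) (p := p) i (m := m - 1) (by omega)
    rw [Nat.sub_add_cancel hm] at h1
    have h2 := wB_pos (P := P) (p := p) i (m - 1)
    refine le_trans ?_ (le_max_right _ _)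
    nlinarith [hundred_le_K P]

lemma cost_nonneg (P : Par d) (p : St d) (i : ℤ) (m : ℕ) (H : ℝ) : 0 ≤ P.cost p i m H :=
  sum_nonneg fun _ _ => (Real.exp_pos _).le

lemma cost_le (hp : P.Inv p) (hr : 0 < p.rem) {i : ℤ} (hi : -P.M ≤ i) {H : ℝ} (hH : 0 ≤ H)
    {m : ℕ} (hm : m ≤ d) : P.cost p i m H ≤ d * Real.exp (H * ((i : ℝ) - 1 / 2)) := by
  refine (sum_le_card_nsmul _ _ (Real.exp (H * ((i : ℝ) - 1 / 2))) fun q _ => ?_).trans ?_
  · exact Real.exp_le_exp.2 (mul_le_mul_of_nonneg_left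
      (by have := (Int.cast_le (R := ℝ)).2 (edge_le hp hr hi q); linarith) hH)
  · rw [nsmul_eq_mul, Nat.card_Icc]
    exact mul_le_mul_of_nonneg_right (by exact_mod_cast (by omega : m + 1 - 1 ≤ d))
      (Real.exp_pos _).le

lemma card_compl_le (s : Finset (Fin d)) : s.card ≤ d := by
  simpa using card_le_univ s

variable {cap i : ℤ} {B : Finset (Fin d)} {f : St d} {c : ℝ → ℝ} {H δ R : ℝ} {ξ : V d}

/-- A step of a completion. -/
structure IsStep (P : Par d) (p : St d) (cap : ℤ) (B : Finset (Fin d)) (i : ℤ) (f : St d)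
    (c : ℝ → ℝ) : Prop where
  inv : P.Inv p
  ne : B.Nonempty
  disj : Disjoint p.J B
  lower : -P.M ≤ i
  upper : i ≤ cap
  ok : p.J ∪ B = univ ∨ -P.M ≤ P.capNext p i B.card
  comp : P.Comp (P.blk p B i) (P.capNext p i B.card) f c

namespace IsStep

variable (hs : IsStep P p cap B i f c)
include hs

lemma full : P.Comp p cap f (P.cost p i B.card + c) :=
  Comp.step hs.ne hs.disj hs.lower hs.upper hs.ok hs.comp

lemma rem_pos : 0 < p.rem := by
  obtain ⟨k, hk⟩ := hs.ne
  exact St.rem_pos fun h => Finset.disjoint_left.1 hs.disj h hk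

lemma n_mem {k : Fin d} (hk : k ∈ B) : f.n k = P.lab p i ∧ f.Xh k = i := by
  have h := (hs.comp.props (inv_blk hs.inv hs.ne hs.disj i)).keep k (by simp [blk, hk])
  simpa [blk, hk, and_comm] using h

lemma n_le {k : Fin d} (hk : k ∉ p.J) : f.n k ≤ P.lab p i := by
  by_cases hkB : k ∈ B
  · exact (hs.n_mem hkB).1.le
  · exact (lt_lab_of_step hs.ne hs.disj hs.comp hs.inv hk hkB).le

lemma not_univ : p.J ≠ univ := by
  intro h
  obtain ⟨k, hk⟩ := hs.ne
  exact Finset.disjoint_left.1 hs.disj (h ▸ mem_univ k) hk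

/-- A higher label would have been better for a coordinate above its position. -/
lemma upper_bound (hb : Bd P p cap δ R) (hH : Big d H δ R)
    (hmax : IsMax P H R ξ p cap f (P.cost p i B.card + c)) {j : ℤ} (hj : -P.M ≤ j) (hjc : j ≤ cap)
    (hlab : P.lab p i < P.lab p j) {k : Fin d} (hk : k ∉ p.J) : ξ k < j := by
  by_contra hge; push Not at hge
  have hg := comp_finish (P := P) hs.not_univ hj hjc
  set g := P.blk p p.Jᶜ j
  have hgn : ∀ l ∉ p.J, g.n l = P.lab p j := fun l hl => by simp [g, blk, hl]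
  obtain ⟨b, hb'⟩ := hs.ne
  have hbJ : b ∉ p.J := fun h => Finset.disjoint_left.1 hs.disj h hb'
  have hδ : δ ≤ P.lab p j - P.lab p i := by
    have := hb.gap _ _ _ _ hs.full hg b hbJ b hbJ (by rw [(hs.n_mem hb').1, hgn b hbJ]; exact hlab)
    rwa [(hs.n_mem hb').1, hgn b hbJ] at this
  have hm := hmax.2 _ _ hg
  have h1 : δ * Real.exp (H * ξ k) ≤
      ∑ l ∈ p.Jᶜ, (g.n l - f.n l) * Real.exp (H * ξ l) := by
    refine le_trans ?_ (single_le_sum (f := fun l => (g.n l - f.n l) * Real.exp (H * ξ l))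
      (fun l hl => mul_nonneg ?_ (Real.exp_pos _).le) (mem_compl.2 hk))
    · exact mul_le_mul_of_nonneg_right (by rw [hgn k hk]; linarith [hs.n_le hk]) (Real.exp_pos _).le
    · rw [hgn l (mem_compl.1 hl)]
      linarith [hs.n_le (mem_compl.1 hl)]
  have h2 := cost_le hs.inv hs.rem_pos hj hH.1 (card_compl_le p.Jᶜ)
  have h3 : 0 ≤ P.cost p i B.card H + c H :=
    add_nonneg (cost_nonneg P _ _ _ _)
      ((hs.comp.props (inv_blk hs.inv hs.ne hs.disj i)).nonneg H)
  have h4 : δ * Real.exp (H * ξ k) ≤ d * Real.exp (H * ((j : ℝ) - 1 / 2)) := by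
    have e : ∑ l ∈ p.Jᶜ, (g.n l - f.n l) * Real.exp (H * ξ l) =
        ∑ l ∈ p.Jᶜ, (g.n l + R) * Real.exp (H * ξ l) -
          ∑ l ∈ p.Jᶜ, (f.n l + R) * Real.exp (H * ξ l) := by
      rw [← sum_sub_distrib]; exact sum_congr rfl fun l _ => by ring
    simp only [val, Pi.add_apply] at hm
    linarith
  have h5 : δ * Real.exp (H / 2) * Real.exp (H * ((j : ℝ) - 1 / 2)) ≤ δ * Real.exp (H * ξ k) := by
    rw [mul_assoc, ← Real.exp_add]
    refine mul_le_mul_of_nonneg_left (Real.exp_le_exp.2 ?_) hb.pos.le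
    nlinarith [mul_le_mul_of_nonneg_left hge hH.1]
  have h6 : (d : ℝ) < δ * Real.exp (H / 2) := by
    nlinarith [hH.2, hb.nonneg, (Nat.cast_nonneg d : (0 : ℝ) ≤ d)]
  nlinarith [mul_lt_mul_of_pos_right h6 (Real.exp_pos (H * ((j : ℝ) - 1 / 2)))]

/-- Coordinates left out of a block lie below the next tie position. -/
lemma outside_bound (hb : Bd P p cap δ R) (hH : Big d H δ R)
    (hmax : IsMax P H R ξ p cap f (P.cost p i B.card + c)) {k : Fin d} (hk : k ∉ p.J)
    (hkB : k ∉ B) : ξ k < P.capNext p i B.card + 1 := by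
  by_contra hge; push Not at hge
  have hok : -P.M ≤ P.capNext p i B.card := by
    refine hs.ok.resolve_left fun h => ?_
    rcases mem_union.1 (h ▸ mem_univ k) with h' | h'
    exacts [hk h', hkB h']
  have hg := comp_finish (P := P) hs.not_univ hs.lower hs.upper
  set g := P.blk p p.Jᶜ i
  have hgn : ∀ l ∉ p.J, g.n l = P.lab p i := fun l hl => by simp [g, blk, hl]
  have hlt := lt_lab_of_step hs.ne hs.disj hs.comp hs.inv hk hkB
  have hδ : δ ≤ g.n k - f.n k :=
    hb.gap _ _ _ _ hs.full hg k hk k hk (by rw [hgn k hk]; exact hlt)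
  have hm := hmax.2 _ _ hg
  have h1 : δ * Real.exp (H * ξ k) ≤
      ∑ l ∈ p.Jᶜ, (g.n l - f.n l) * Real.exp (H * ξ l) := by
    refine le_trans ?_ (single_le_sum (f := fun l => (g.n l - f.n l) * Real.exp (H * ξ l))
      (fun l hl => mul_nonneg ?_ (Real.exp_pos _).le) (mem_compl.2 hk))
    · exact mul_le_mul_of_nonneg_right hδ (Real.exp_pos _).le
    · rw [hgn l (mem_compl.1 hl)]
      linarith [hs.n_le (mem_compl.1 hl)]
  set E : ℤ := P.capNext p i B.card + 1 with hE
  have hBc : B.card ≤ p.Jᶜ.card :=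
    card_le_card fun l hl => mem_compl.2 fun h => Finset.disjoint_left.1 hs.disj h hl
  have h2 : P.cost p i p.Jᶜ.card H ≤
      P.cost p i B.card H + d * Real.exp (H * ((E : ℝ) - 1 / 2)) := by
    have hsub : Finset.Icc 1 B.card ⊆ Finset.Icc 1 p.Jᶜ.card := Finset.Icc_subset_Icc le_rfl hBc
    rw [cost, cost, ← sum_sdiff hsub, add_comm]
    refine add_le_add le_rfl ((sum_le_card_nsmul _ _ (Real.exp (H * ((E : ℝ) - 1 / 2)))
      fun q hq => ?_).trans ?_)
    · simp only [mem_sdiff, Finset.mem_Icc, not_and, not_le] at hq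
      have hq1 : B.card < q := hq.2 hq.1.1
      have hcard := card_pos.2 hs.ne
      have hne1 : q ≠ 1 := by omega
      have : P.edge p i q ≤ E := by
        rw [edge, if_neg hne1]
        have hw := wB_mono (P := P) (p := p) i (m := B.card) (n := q - 1) hcard (by omega)
        simp only [hE, capNext] at hok ⊢
        exact max_le (by linarith) (by linarith)
      exact Real.exp_le_exp.2 (mul_le_mul_of_nonneg_left
        (by have := (Int.cast_le (R := ℝ)).2 this; linarith) hH.1)
    · rw [nsmul_eq_mul]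
      refine mul_le_mul_of_nonneg_right ?_ (Real.exp_pos _).le
      have hc1 := card_le_card (sdiff_subset (s := Finset.Icc 1 p.Jᶜ.card)
        (t := Finset.Icc 1 B.card))
      have hc2 : (Finset.Icc 1 p.Jᶜ.card).card ≤ d := by
        rw [Nat.card_Icc]; have := card_compl_le p.Jᶜ; omega
      exact_mod_cast hc1.trans hc2
  have h3 := (hs.comp.props (inv_blk hs.inv hs.ne hs.disj i)).nonneg H
  have h4 : δ * Real.exp (H * ξ k) ≤ d * Real.exp (H * ((E : ℝ) - 1 / 2)) := by
    have e : ∑ l ∈ p.Jᶜ, (g.n l - f.n l) * Real.exp (H * ξ l) =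
        ∑ l ∈ p.Jᶜ, (g.n l + R) * Real.exp (H * ξ l) -
          ∑ l ∈ p.Jᶜ, (f.n l + R) * Real.exp (H * ξ l) := by
      rw [← sum_sub_distrib]; exact sum_congr rfl fun l _ => by ring
    simp only [val, Pi.add_apply] at hm
    linarith
  have h5 : δ * Real.exp (H / 2) * Real.exp (H * ((E : ℝ) - 1 / 2)) ≤ δ * Real.exp (H * ξ k) := by
    rw [mul_assoc, ← Real.exp_add]
    refine mul_le_mul_of_nonneg_left (Real.exp_le_exp.2 ?_) hb.pos.le
    have hge' : (E : ℝ) ≤ ξ k := by rw [hE]; push_cast; linarith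
    nlinarith [mul_le_mul_of_nonneg_left hge' hH.1]
  have h6 : (d : ℝ) < δ * Real.exp (H / 2) := by
    nlinarith [hH.2, hb.nonneg, (Nat.cast_nonneg d : (0 : ℝ) ≤ d)]
  nlinarith [mul_lt_mul_of_pos_right h6 (Real.exp_pos (H * ((E : ℝ) - 1 / 2)))]

/-- Members of a block lie above the last edge. -/
lemma lower_bound (hb : Bd P p cap δ R) (hH : Big d H δ R)
    (hmax : IsMax P H R ξ p cap f (P.cost p i B.card + c))
    (he : -P.M < P.edge p i B.card) {k : Fin d} (hk : k ∈ B) :
    (P.edge p i B.card : ℝ) - 1 ≤ ξ k := by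
  classical
  by_contra hlt; push Not at hlt
  set E : ℤ := P.edge p i B.card
  set B' := B.filter fun l => (E : ℝ) - 1 ≤ ξ l
  have hkB' : k ∉ B' := fun h => absurd (mem_filter.1 h).2 (not_le.2 hlt)
  have hlt' : B'.card < B.card :=
    card_lt_card ⟨filter_subset _ _, fun h => hkB' (h hk)⟩
  have hcard := card_pos.2 hs.ne
  have hkJ : k ∉ p.J := fun h => Finset.disjoint_left.1 hs.disj h hk
  have hMM : (((-P.M : ℤ) : ℝ)) ≤ (E : ℝ) - 1 := by
    have : -P.M ≤ E - 1 := by linarith
    exact_mod_cast this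
  -- the competitor
  obtain ⟨g, cg, hg, hgn, hgc⟩ : ∃ g cg, P.Comp p cap g cg ∧ (∀ l ∈ B', g.n l = P.lab p i) ∧
      cg H ≤ P.cost p i (B.card - 1) H + d * Real.exp (H * ((E : ℝ) - 1)) := by
    have hbot : ∀ q : St d, P.Inv q → q.J ≠ univ → P.cost q (-P.M) q.Jᶜ.card H ≤
        d * Real.exp (H * ((E : ℝ) - 1)) := by
      intro q hq hne
      obtain ⟨l, hl⟩ : ∃ l, l ∉ q.J := by
        by_contra h; push Not at h
        exact hne (eq_univ_iff_forall.2 h)
      refine (cost_le hq (St.rem_pos hl) le_rfl hH.1 (card_compl_le _)).trans ?_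
      refine mul_le_mul_of_nonneg_left (Real.exp_le_exp.2 ?_) (Nat.cast_nonneg _)
      exact mul_le_mul_of_nonneg_left (by linarith) hH.1
    rcases B'.eq_empty_or_nonempty with h0 | hne
    · refine ⟨_, _, comp_finish (P := P) hs.not_univ le_rfl (hs.lower.trans hs.upper),
        fun l hl => by rw [h0] at hl; exact absurd hl (notMem_empty _), ?_⟩
      linarith [hbot p hs.inv hs.not_univ, cost_nonneg P p i (B.card - 1) H]
    · have hd' : Disjoint p.J B' := hs.disj.mono_right (filter_subset _ _)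
      have hq := inv_blk hs.inv hne hd' i
      have hne' : (P.blk p B' i).J ≠ univ := by
        intro h
        have := h ▸ mem_univ k
        simp [blk, hkJ, hkB'] at this
      have hm' := card_pos.2 hne
      have hcap : -P.M ≤ P.capNext p i B'.card := by
        have h2 : B.card ≠ 1 := by omega
        have he' : -P.M < P.edge p i B.card := he
        rw [edge, if_neg h2, lt_max_iff] at he'
        have he'' : -P.M < i - 2 * P.wB p i (B.card - 1) :=
          he'.resolve_left (lt_irrefl _)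
        have hw := wB_mono (P := P) (p := p) i (m := B'.card) (n := B.card - 1) hm' (by omega)
        simp only [capNext]
        omega
      refine ⟨_, _, Comp.step hne hd' hs.lower hs.upper (Or.inr hcap)
        (comp_finish (P := P) hne' le_rfl hcap), fun l hl => by simp [blk, hl], ?_⟩
      simp only [Pi.add_apply]
      refine add_le_add ?_ (hbot _ hq hne')
      exact sum_le_sum_of_subset_of_nonneg (Finset.Icc_subset_Icc le_rfl (by omega))
        fun _ _ _ => (Real.exp_pos _).le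
  have hm := hmax.2 _ _ hg
  have hsmall : ∀ l ∈ p.Jᶜ, l ∉ B' → ξ l ≤ (E : ℝ) - 1 := by
    intro l hl hlB'
    by_cases hlB : l ∈ B
    · simp only [B', mem_filter, not_and, not_le] at hlB'
      exact (hlB' hlB).le
    · have h1 := hs.outside_bound hb hH hmax (mem_compl.1 hl) hlB
      have h2 := below_edge hs.inv hs.rem_pos hs.lower hcard he
      have h3 : P.capNext p i B.card + 1 ≤ E - 1 := by simp only [capNext]; linarith
      have h4 : ((P.capNext p i B.card : ℝ) + 1) ≤ (E : ℝ) - 1 := by exact_mod_cast h3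
      linarith
  have h1 : ∑ l ∈ p.Jᶜ, ((f.n l + R) * Real.exp (H * ξ l) - (g.n l + R) * Real.exp (H * ξ l)) ≤
      p.Jᶜ.card • (2 * R * Real.exp (H * ((E : ℝ) - 1))) := by
    refine sum_le_card_nsmul _ _ _ fun l hl => ?_
    have hl' := mem_compl.1 hl
    have hf := abs_le.1 (hb.abs_le _ _ hs.full l hl')
    have hg' := abs_le.1 (hb.abs_le _ _ hg l hl')
    by_cases hlB' : l ∈ B'
    · rw [hgn l hlB', (hs.n_mem (filter_subset _ _ hlB')).1, sub_self]
      exact mul_nonneg (by linarith [hb.nonneg]) (Real.exp_pos _).le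
    · calc (f.n l + R) * Real.exp (H * ξ l) - (g.n l + R) * Real.exp (H * ξ l)
          = (f.n l - g.n l) * Real.exp (H * ξ l) := by ring
        _ ≤ (2 * R) * Real.exp (H * ξ l) := by gcongr; linarith
        _ ≤ _ := mul_le_mul_of_nonneg_left
            (Real.exp_le_exp.2 (mul_le_mul_of_nonneg_left (hsmall l hl hlB') hH.1))
            (by linarith [hb.nonneg])
  rw [sum_sub_distrib, nsmul_eq_mul] at h1
  have hlast : P.cost p i (B.card - 1) H + Real.exp (H * ((E : ℝ) - 1 / 2)) =
      P.cost p i B.card H := by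
    obtain ⟨m, hm⟩ := Nat.exists_eq_add_of_le' hcard
    simp only [cost, E, hm, Nat.add_sub_cancel]
    rw [sum_Icc_succ_top (by omega)]
  have hc0 := (hs.comp.props (inv_blk hs.inv hs.ne hs.disj i)).nonneg H
  simp only [val, Pi.add_apply] at hm
  set Z := Real.exp (H * ((E : ℝ) - 1))
  have hZ : 0 < Z := Real.exp_pos _
  have h5 : Real.exp (H * ((E : ℝ) - 1 / 2)) = Real.exp (H / 2) * Z := by
    rw [← Real.exp_add]; ring_nf
  have hcd : (p.Jᶜ.card : ℝ) ≤ d := by exact_mod_cast card_compl_le p.Jᶜ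
  have h7 : (2 * R + 1) * d < Real.exp (H / 2) := by
    nlinarith [hH.2, hb.nonneg, (Nat.cast_nonneg d : (0 : ℝ) ≤ d), hb.le_one,
      Real.exp_pos (H / 2)]
  nlinarith [mul_lt_mul_of_pos_right h7 hZ, mul_le_mul_of_nonneg_right hcd
    (mul_nonneg (mul_nonneg zero_le_two hb.nonneg) hZ.le)]

/-- The error at the members of a block. -/
lemma member_bound (hb : Bd P p cap δ R) (hH : Big d H δ R)
    (hmax : IsMax P H R ξ p cap f (P.cost p i B.card + c)) {k : Fin d} (hk : k ∈ B)
    (hup : ξ k < cap + 1) (hlo : -(P.M : ℝ) ≤ ξ k ∨ -P.M < P.edge p i B.card) :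
    |ξ k - i| ≤ (P.K : ℝ) ^ f.a := by
  classical
  have hr := hs.rem_pos
  have hkJ : k ∉ p.J := fun h => Finset.disjoint_left.1 hs.disj h hk
  have hcard := card_pos.2 hs.ne
  set S := spread P p i with hS
  have hS0 : 0 ≤ S := by
    simp only [hS, spread]
    split_ifs <;> linarith [P.one_le_wid p.a p.rem]
  have hU : ξ k < i + S + 1 := by
    by_cases hj : i + S + 1 ≤ cap
    · have hne : P.lab p i ≠ P.lab p (i + S + 1) := fun h => by
        have := abs_le.1 (lab_eq_near hs.inv hr h)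
        linarith [this.1]
      have hlt := lt_of_le_of_ne (lab_mono hs.inv hr (by linarith : i ≤ i + S + 1)) hne
      have := hs.upper_bound hb hH hmax (by linarith [hs.lower]) hj hlt hkJ
      exact_mod_cast this
    · have : (cap : ℝ) + 1 ≤ i + S + 1 := by exact_mod_cast (by omega : cap + 1 ≤ i + S + 1)
      linarith
  have hL : (P.edge p i B.card : ℝ) - 1 ≤ ξ k := by
    by_cases he : -P.M < P.edge p i B.card
    · exact hs.lower_bound hb hH hmax he hk
    · have h1 := hlo.resolve_right he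
      have h2 : (P.edge p i B.card : ℝ) ≤ -(P.M : ℝ) := by exact_mod_cast (not_lt.1 he)
      linarith
  have hA : ∀ m, 1 ≤ m → ∀ x : ℤ, x + 1 ≤ 5 * P.wid (P.aB p i (m - 1)) (p.rem - (m - 1)) →
      P.aB p i m = next (P.aB p i (m - 1)) (p.rem - (m - 1)) →
      (x : ℝ) + 1 ≤ (P.K : ℝ) ^ P.aB p i m := by
    intro m _ x hx he
    have hx' : (x : ℝ) + 1 ≤ ((5 * P.wid (P.aB p i (m - 1)) (p.rem - (m - 1)) : ℤ) : ℝ) := by
      exact_mod_cast hx
    refine le_trans hx' ?_
    rw [he]
    push_cast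
    rw [P.wid_cast]
    exact P.mul_pow_le (by linarith [P.le_K.1]) (by simp only [next]; omega)
  have hSb : (S : ℝ) + 1 ≤ (P.K : ℝ) ^ P.aB p i B.card := by
    refine le_trans ?_ (P.pow_le (aB_mono (P := P) (p := p) i hcard))
    by_cases hw : P.Win p i
    · refine hA 1 le_rfl S ?_ ?_
      · simp only [hS, spread, if_pos hw, aB, Nat.sub_self, Nat.sub_zero]
        linarith [P.one_le_wid p.a p.rem]
      · simp [aB, first, hw]
    · simp only [hS, spread, if_neg hw, Int.cast_zero, zero_add]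
      exact one_le_pow₀ P.one_le_K
  have hLb : (i : ℝ) - P.edge p i B.card + 1 ≤ (P.K : ℝ) ^ P.aB p i B.card := by
    by_cases h1 : B.card = 1
    · have h2 : ((i : ℝ) - S) ≤ P.edge p i B.card := by
        rw [edge, if_pos h1]
        exact_mod_cast (first_pos_spec hs.inv hr hs.lower).2.2
      linarith
    · have h2 : ((i : ℝ) - 2 * P.wB p i (B.card - 1)) ≤ P.edge p i B.card := by
        rw [edge, if_neg h1]
        exact_mod_cast le_max_right (-P.M) (i - 2 * P.wB p i (B.card - 1))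
      have h3 := hA B.card hcard (2 * P.wB p i (B.card - 1))
        (by simp only [wB]; linarith [P.one_le_wid (P.aB p i (B.card - 1)) (p.rem - (B.card - 1))])
        (by
          obtain ⟨m, hm⟩ := Nat.exists_eq_add_of_le' (show 2 ≤ B.card by omega)
          simp [hm, aB])
      push_cast at h3
      linarith
  have ha := P.pow_le (hs.comp.props (inv_blk hs.inv hs.ne hs.disj i)).a_le
  rw [show (P.blk p B i).a = P.aB p i B.card from rfl] at ha
  rw [abs_le]
  constructor <;> linarith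

end IsStep

/-- The part of a completion below a step is again largest. -/
lemma IsMax.child (hs : IsStep P p cap B i f c)
    (hmax : IsMax P H R ξ p cap f (P.cost p i B.card + c)) :
    IsMax P H R ξ (P.blk p B i) (P.capNext p i B.card) f c := by
  refine ⟨hs.comp, fun g c' hg => ?_⟩
  have hI := inv_blk hs.inv hs.ne hs.disj i
  have h := hmax.2 _ _ (Comp.step hs.ne hs.disj hs.lower hs.upper hs.ok hg)
  have hsplit : ∀ u : V d, ∑ l ∈ p.Jᶜ, u l = ∑ l ∈ B, u l + ∑ l ∈ (P.blk p B i).Jᶜ, u l := by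
    intro u
    rw [← sum_union (disjoint_compl_right.mono_left (by simp [blk]))]
    refine sum_congr ?_ fun _ _ => rfl
    ext l
    have : l ∈ B → l ∉ p.J := fun h h' => Finset.disjoint_left.1 hs.disj h' h
    simp [blk]
    grind
  have hgB : ∀ l ∈ B, g.n l = f.n l := fun l hl => by
    rw [(hs.n_mem hl).1, ((hg.props hI).keep l (by simp [blk, hl])).2]
    simp [blk, hl]
  simp only [val, Pi.add_apply, hsplit fun l => (g.n l + R) * Real.exp (H * ξ l),
    hsplit fun l => (f.n l + R) * Real.exp (H * ξ l)] at h ⊢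
  have : ∑ l ∈ B, (g.n l + R) * Real.exp (H * ξ l) = ∑ l ∈ B, (f.n l + R) * Real.exp (H * ξ l) :=
    sum_congr rfl fun l hl => by rw [hgB l hl]
  linarith

/-- A completion of largest value rounds every logarithm. -/
theorem Comp.rounds (h : P.Comp p cap f c) (hp : P.Inv p) (hb : Bd P p cap δ R)
    (hH : Big d H δ R) (hξ : ∀ k ∉ p.J, -(P.M : ℝ) ≤ ξ k ∧ ξ k < cap + 1)
    (hmax : IsMax P H R ξ p cap f c) : ∀ k ∉ p.J, |ξ k - f.Xh k| ≤ (P.K : ℝ) ^ f.a := by
  induction h with
  | done p cap hJ => exact fun k hk => absurd (hJ ▸ mem_univ k) hk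
  | @step p cap B i f c hB hd hi hcap hok hc ih =>
    have hs : IsStep P p cap B i f c := ⟨hp, hB, hd, hi, hcap, hok, hc⟩
    intro k hk
    by_cases hkB : k ∈ B
    · rw [(hs.n_mem hkB).2]
      exact hs.member_bound hb hH hmax hkB (hξ k hk).2 (Or.inl (hξ k hk).1)
    · refine ih (inv_blk hp hB hd i) ?_ (fun l hl => ?_) (hmax.child hs) k (by simp [blk, hk, hkB])
      · exact ⟨hb.pos, hb.le_one, hb.nonneg,
          fun g c' hg l hl => hb.abs_le g _ (Comp.step hB hd hi hcap hok hg) l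
            (fun h => hl (by simp [blk, h])),
          fun g c' g' c'' hg hg' l hl l' hl' => hb.gap g _ g' _ (Comp.step hB hd hi hcap hok hg)
            (Comp.step hB hd hi hcap hok hg') l (fun h => hl (by simp [blk, h])) l'
            (fun h => hl' (by simp [blk, h]))⟩
      · simp only [blk, mem_union, not_or] at hl
        exact ⟨(hξ l hl.1).1, hs.outside_bound hb hH hmax hl.1 hl.2⟩

end Vale.Agent.P072.Perm.Par
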