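import Vale.Agent.P072.Perm.Optimal
import Vale.Agent.P072.Cut

/-! The nested compact regions cut out by the label vectors. -/

noncomputable section

namespace Vale.Agent.P072.Perm

open Finset

variable {d : ℕ}

/-- The largest derivative of `n` along the field for rates in `[ε, ε⁻¹]`. -/
def phi (R : Finset (Reaction d)) (ε : ℝ) (n x : V d) : ℝ :=
  ∑ r ∈ R, max (ε * ((∏ i, x i ^ r.1 i) * (n ⬝ᵥ vec r)))
    (ε⁻¹ * ((∏ i, x i ^ r.1 i) * (n ⬝ᵥ vec r)))

lemma continuous_phi (R : Finset (Reaction d)) (ε : ℝ) (n : V d) : Continuous (phi R ε n) := by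
  unfold phi
  fun_prop

lemma dot_field (R : Finset (Reaction d)) (k : Reaction d → ℝ) (n x : V d) :
    n ⬝ᵥ field R k x = ∑ r ∈ R, k r * ((∏ i, x i ^ r.1 i) * (n ⬝ᵥ vec r)) := by
  simp [field, dotProduct_sum, dotProduct_smul, mul_assoc]

lemma dot_field_le {R : Finset (Reaction d)} {ε : ℝ} {k : Reaction d → ℝ}
    (hk : ∀ r ∈ R, k r ∈ Set.Icc ε ε⁻¹) (n x : V d) : n ⬝ᵥ field R k x ≤ phi R ε n x := by
  rw [dot_field]
  refine sum_le_sum fun r hr => ?_
  rcases le_total 0 ((∏ i, x i ^ r.1 i) * (n ⬝ᵥ vec r)) with h | h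
  · exact le_max_of_le_right (mul_le_mul_of_nonneg_right (hk r hr).2 h)
  · exact le_max_of_le_left (mul_le_mul_of_nonpos_right (hk r hr).1 h)

lemma exists_field_eq {ε : ℝ} (hε : 0 < ε) (hε1 : ε ≤ 1) (R : Finset (Reaction d)) (n x : V d) :
    ∃ k : Reaction d → ℝ, (∀ r ∈ R, k r ∈ Set.Icc ε ε⁻¹) ∧ n ⬝ᵥ field R k x = phi R ε n x := by
  have hle : ε ≤ ε⁻¹ := hε1.trans (one_le_inv₀ hε |>.2 hε1)
  refine ⟨fun r => if 0 ≤ (∏ i, x i ^ r.1 i) * (n ⬝ᵥ vec r) then ε⁻¹ else ε, fun r _ => ?_, ?_⟩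
  · dsimp only
    split_ifs
    exacts [Set.right_mem_Icc.2 hle, Set.left_mem_Icc.2 hle]
  · rw [dot_field]
    refine sum_congr rfl fun r _ => ?_
    split_ifs with h
    · exact (max_eq_right (mul_le_mul_of_nonneg_right hle h)).symm
    · exact (max_eq_left (mul_le_mul_of_nonpos_right hle (le_of_not_ge h))).symm

/-- A vector outside a subspace pairs with some annihilator of it. -/
lemma dot_eq_of_mem {S : Set (V d)} {n v : V d} (h : ∀ w ∈ S, n ⬝ᵥ w = 0)
    (hv : v ∈ Submodule.span ℝ S) : n ⬝ᵥ v = 0 := by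
  induction hv using Submodule.span_induction with
  | mem w hw => exact h w hw
  | zero => simp
  | add a b _ _ ha hb => rw [dotProduct_add, ha, hb, add_zero]
  | smul a b _ hb => rw [dotProduct_smul, hb, smul_zero]

namespace Par

variable (P : Par d)

/-- The empty node. -/
def root : St d := ⟨∅, 0, 0, 1⟩

lemma inv_root : P.Inv (root : St d) := by
  refine ⟨le_rfl, fun _ _ => ⟨rfl, rfl⟩, fun v _ hs => ?_⟩
  have : v = 0 := funext fun j => by
    by_contra hj
    exact notMem_empty j (hs j hj)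
  simp [this, Tri]

lemma root_rem : (root : St d).rem = d := by simp [root, St.rem]

/-- All label vectors with their costs. -/
def leaves : Finset (St d × (ℝ → ℝ)) := (P.comp_finite root P.M).toFinset

variable {P}

lemma mem_leaves {fc : St d × (ℝ → ℝ)} : fc ∈ P.leaves ↔ P.Comp root P.M fc.1 fc.2 :=
  Set.Finite.mem_toFinset _

lemma M_big : 100 * (P.K : ℝ) ^ (8 ^ d + 2) ≤ (P.M : ℝ) := by
  rw [M]; push_cast
  rw [show 8 ^ d + 3 = 8 ^ d + 2 + 1 from rfl, pow_succ (P.K : ℝ) (8 ^ d + 2)]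
  nlinarith [P.le_K.1, pow_pos P.K_pos (8 ^ d + 2)]

lemma M_pos : (0 : ℤ) < P.M := by
  have h : (0 : ℝ) < (P.M : ℝ) := lt_of_lt_of_le (mul_pos (by norm_num) (pow_pos P.K_pos _)) M_big
  exact_mod_cast h

lemma exists_zero_leaf (P : Par d) : ∃ fc ∈ P.leaves, fc.1.n = 0 := by
  rcases Nat.eq_zero_or_pos d with rfl | hd
  · exact ⟨(root, 0), mem_leaves.2 (Comp.done _ _ (by simp [root])), rfl⟩
  have hne : (root : St d).J ≠ univ := fun h => by
    have := h ▸ mem_univ (⟨0, hd⟩ : Fin d)
    simp [root] at this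
  refine ⟨(P.blk root (root : St d).Jᶜ 0, P.cost root 0 (root : St d).Jᶜ.card),
    mem_leaves.2 (comp_finish hne (by linarith [M_pos (P := P)]) M_pos.le), funext fun k => ?_⟩
  have hk : k ∉ (root : St d).J := by simp [root]
  have h0 := lab_win P.inv_root (by rw [root_rem]; exact hd) (P.inv_root.zero_thr hk) (j := 0)
    (by simp only [Int.cast_zero, sub_zero, abs_zero]
        exact_mod_cast zero_le_one.trans (P.one_le_wid _ _))
  simpa [blk, hk] using h0

lemma exists_bd (P : Par d) : ∃ δ R, Bd P root P.M δ R := by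
  classical
  set S : Finset ℝ := P.leaves.biUnion fun fc => univ.image fun k => fc.1.n k
  set T : Finset ℝ := insert 1 (((S ×ˢ S).image fun q => q.2 - q.1).filter fun t => 0 < t)
  have hmem : ∀ f c, P.Comp root P.M f c → ∀ k, f.n k ∈ S := fun f c h k =>
    mem_biUnion.2 ⟨(f, c), mem_leaves.2 h, mem_image_of_mem _ (mem_univ k)⟩
  refine ⟨T.min' (insert_nonempty _ _), ∑ t ∈ S, |t|, ⟨?_, min'_le _ _ (mem_insert_self _ _),
    sum_nonneg fun _ _ => abs_nonneg _, fun f c h k _ =>
      single_le_sum (f := fun t : ℝ => |t|) (fun _ _ => abs_nonneg _) (hmem f c h k), ?_⟩⟩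
  · rw [lt_min'_iff]
    intro t ht
    rcases mem_insert.1 ht with rfl | h
    · exact one_pos
    · exact (mem_filter.1 h).2
  · intro f c g c' hf hg k _ k' _ hlt
    have h1 : g.n k' - f.n k ∈ T := mem_insert_of_mem (mem_filter.2 ⟨mem_image.2
      ⟨((f.n k : ℝ), (g.n k' : ℝ)), mem_product.2 ⟨hmem f c hf k, hmem g c' hg k'⟩, rfl⟩,
      sub_pos.2 hlt⟩)
    exact min'_le T _ h1

/-- A maximiser labelled zero confines the point to a box. -/
lemma box_of_zero {δ R H : ℝ} {ξ : V d} (hb : Bd P root P.M δ R) (hH : Big d H δ R)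
    {f : St d} {c : ℝ → ℝ} (hmax : IsMax P H R ξ root P.M f c) (hn : f.n = 0) (k : Fin d) :
    |ξ k| ≤ 5 * (P.K : ℝ) ^ (8 ^ d + 2) := by
  have h := hmax.1
  cases h with
  | done _ _ hJ => exact absurd (hJ ▸ mem_univ k) (by simp [root])
  | @step _ _ B i _ c hB hd hi hcap hok hc =>
    have hs : IsStep P root P.M B i f c := ⟨P.inv_root, hB, hd, hi, hcap, hok, hc⟩
    have hr := hs.rem_pos
    have hkJ : k ∉ (root : St d).J := by simp [root]
    obtain ⟨b, hb'⟩ := hB
    have hlab : P.lab root i = 0 := by rw [← (hs.n_mem hb').1, hn]; rfl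
    have hkB : k ∈ B := by
      by_contra hkB
      have := lt_lab_of_step ⟨b, hb'⟩ hd hc P.inv_root hkJ hkB
      rw [hlab, hn] at this
      exact lt_irrefl _ this
    have hw : (P.wid (root : St d).a (root : St d).rem : ℝ) ≤ (P.K : ℝ) ^ (8 ^ d + 2) := by
      have e := eight_pow (r := d) (by rwa [root_rem] at hr)
      rw [P.wid_cast, root_rem]
      exact P.pow_le (by simp only [root]; omega)
    have hwj : ∀ j, (spread P root j : ℝ) ≤ 4 * (P.K : ℝ) ^ (8 ^ d + 2) := by
      intro j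
      rw [spread]
      split_ifs
      · push_cast; linarith
      · simp only [Int.cast_zero]; positivity
    have h0 : P.lab root 0 = 0 := by
      rw [lab_win P.inv_root hr (P.inv_root.zero_thr hkJ)]
      simp only [Int.cast_zero, sub_zero, abs_zero]
      exact_mod_cast zero_le_one.trans (P.one_le_wid _ _)
    have hi0 : |(i : ℝ)| ≤ 4 * (P.K : ℝ) ^ (8 ^ d + 2) := by
      have h1 := lab_eq_near P.inv_root hr (hlab.trans h0.symm)
      rw [sub_zero] at h1
      have h1' : |(i : ℝ)| ≤ (spread P root i : ℝ) := by exact_mod_cast h1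
      linarith [hwj i]
    have hM := M_big (P := P)
    have hM0 := M_pos (P := P)
    have hne : P.lab root i ≠ P.lab root P.M := fun he => by
      have h1 := lab_eq_near P.inv_root hr he
      have h1' : |(i : ℝ) - (P.M : ℝ)| ≤ (spread P root i : ℝ) := by exact_mod_cast h1
      have := abs_le.1 h1'
      have := abs_le.1 hi0
      linarith [hwj i, pow_pos P.K_pos (8 ^ d + 2)]
    have hup := hs.upper_bound hb hH hmax (by linarith) le_rfl
      (lt_of_le_of_ne (lab_mono P.inv_root hr hcap) hne) hkJ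
    have hedge : -P.M < P.edge root i B.card := by
      have hlow : -(P.M : ℝ) < (P.edge root i B.card : ℝ) := by
        rw [edge]
        split_ifs with h1
        · have h2 := (first_pos_spec P.inv_root hr hi).2.2
          have h2' : (i : ℝ) - (spread P root i : ℝ) ≤ (P.first_pos root i : ℝ) := by
            exact_mod_cast h2
          have := abs_le.1 hi0
          linarith [hwj i, pow_pos P.K_pos (8 ^ d + 2)]
        · have hq : B.card - 1 < (root : St d).rem := by
            have := card_le_rem hd; have := card_pos.2 ⟨b, hb'⟩; omega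
          have hbd := (aB_bounds (P := P) (p := root) i _ hq.le).2
          have hwB : (P.wB root i (B.card - 1) : ℝ) ≤ (P.K : ℝ) ^ (8 ^ d + 2) := by
            have e := eight_pow (r := (root : St d).rem - (B.card - 1)) (by omega)
            rw [wB, P.wid_cast]
            refine P.pow_le ?_
            rw [root_rem] at hbd e ⊢
            simp only [root] at hbd ⊢
            omega
          refine lt_of_lt_of_le ?_ (Int.cast_le.2 (le_max_right _ _))
          push_cast
          have := abs_le.1 hi0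
          linarith [pow_pos P.K_pos (8 ^ d + 2)]
      exact_mod_cast hlow
    have hm := hs.member_bound hb hH hmax hkB (hup.trans (by linarith)) (Or.inr hedge)
    have ha : f.a ≤ 8 ^ d + 2 := by
      have := (hs.full.props P.inv_root).a_bd
      rw [root_rem] at this
      simp only [root] at this
      omega
    have h1 := abs_sub_abs_le_abs_sub (ξ k) (i : ℝ)
    linarith [P.pow_le ha]

/-- At a maximiser every relevant vector has a large pairing of the sign of its label. -/
lemma signs {δ R H : ℝ} {ξ : V d} (hb : Bd P root P.M δ R) (hH : Big d H δ R)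
    (hξ : ∀ k, |ξ k| < P.M) {f : St d} {c : ℝ → ℝ} (hmax : IsMax P H R ξ root P.M f c)
    {v : V d} (hv : v ∈ P.D) :
    (0 < f.n ⬝ᵥ v → 1 ≤ ξ ⬝ᵥ v) ∧ (f.n ⬝ᵥ v < 0 → ξ ⬝ᵥ v ≤ -1) := by
  have hp := hmax.1.props P.inv_root
  have hrd := Comp.rounds hmax.1 P.inv_root hb hH
    (fun k _ => ⟨(abs_lt.1 (hξ k)).1.le, by linarith [(abs_lt.1 (hξ k)).2]⟩) hmax
  have hrem : f.rem = 0 := by simp [St.rem, hp.full]
  obtain ⟨-, hpos, hneg⟩ := hp.inv.2.2 v (by rw [hrem]; exact hv)
    (fun j _ => hp.full ▸ mem_univ j)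
  rw [hrem, pow_zero] at hpos hneg
  have herr : |ξ ⬝ᵥ v - f.X ⬝ᵥ v| ≤ P.Λ * (P.K : ℝ) ^ f.a := by
    rw [← sub_dotProduct, dotProduct]
    refine (abs_sum_le_sum_abs _ _).trans ?_
    refine le_trans (sum_le_sum fun j _ => ?_)
      (le_of_eq_of_le (sum_mul _ _ _).symm (mul_le_mul_of_nonneg_right
        (P.bound v (clo_mono P.D (Nat.zero_le d) hv)).1 (pow_nonneg P.K_pos.le _)))
    rw [abs_mul, mul_comm]
    exact mul_le_mul_of_nonneg_left (hrd j (by simp [root])) (abs_nonneg _)
  have hbig : P.Λ * (P.K : ℝ) ^ f.a + 1 ≤ (P.K : ℝ) ^ (f.a + 1) := by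
    have h1 : (1 : ℝ) ≤ (P.K : ℝ) ^ f.a := one_le_pow₀ P.one_le_K
    rw [pow_succ]
    nlinarith [P.le_K.2.2, P.one_le, sq_nonneg (P.Λ - 1)]
  rw [abs_le] at herr
  exact ⟨fun h => by linarith [hpos h, herr.1], fun h => by linarith [hneg h, herr.2]⟩

end Par

/-- The region cut out by `L` at scale `H`. -/
def region (R : Finset (Reaction d)) (c : V d) (L : Finset (V d × (ℝ → ℝ))) (H : ℝ) : Set (V d) :=
  {x ∈ posClass R c | ∀ l ∈ L, l.1 ⬝ᵥ x ≤ l.2 H}

open Par in
/-- Compact regions exhausting the class, strictly attracting each the next. -/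
theorem exists_region (R : Finset (Reaction d)) (hR : WeaklyReversible R) {ε : ℝ} (hε : 0 < ε)
    (hε1 : ε ≤ 1) {c : V d} (hc : ∀ i, 0 < c i) :
    ∃ (L : Finset (V d × (ℝ → ℝ))) (H0 : ℝ), 0 < H0 ∧
      (∀ H, H0 ≤ H → IsCompact (region R c L H)) ∧
      (∀ x ∈ posClass R c, ∃ j : ℕ, x ∈ region R c L (2 ^ j * H0)) ∧
      ∀ H, H0 ≤ H → ∀ x, (x ∈ region R c L H ∨ x ∈ region R c L (2 * H)) → ∀ l ∈ L,
        0 ≤ l.1 ⬝ᵥ x - l.2 H → (∀ l' ∈ L, l'.1 ⬝ᵥ x - l'.2 H ≤ l.1 ⬝ᵥ x - l.2 H) →
          phi R ε l.1 x < 0 := by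
  classical
  obtain ⟨P, hP⟩ := exists_par (diffs R)
  obtain ⟨δ, Rb, hb⟩ := P.exists_bd
  obtain ⟨Hc, hHc, hcut⟩ := cut R hR hε
  set Z := P.leaves.filter fun fc => fc.1.n = 0 with hZ
  have hZne : (Z.image Prod.snd).Nonempty := by
    obtain ⟨fc, h, h0⟩ := P.exists_zero_leaf
    exact ⟨_, mem_image_of_mem _ (mem_filter.2 ⟨h, h0⟩)⟩
  set c0 : ℝ → ℝ := fun H => ((Z.image Prod.snd).image fun q => q H).min' (hZne.image _)
  set L := (P.leaves.filter fun fc => fc.1.n ≠ 0).image fun fc =>
    (fc.1.n, fun H => fc.2 H - c0 H) with hL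
  set cm : ℝ := 1 + ∑ i, (c i)⁻¹
  have hcm : 0 < cm := add_pos_of_pos_of_nonneg one_pos (sum_nonneg fun i _ =>
    (inv_pos.2 (hc i)).le)
  set H0 : ℝ := 1 + Hc + 4 * (Rb + 1) * (d + 1) * (1 + cm + ∑ i, c i) / δ
  have hR0 := hb.nonneg
  have hδ := hb.pos
  have hsc : 0 ≤ ∑ i, c i := sum_nonneg fun i _ => (hc i).le
  have hH0 : 1 ≤ H0 := le_add_of_le_of_nonneg (by linarith) (by positivity)
  have key : ∀ H, H0 ≤ H → 0 < H ∧ Hc ≤ H ∧
      4 * (Rb + 1) * (d + 1) * (1 + cm + ∑ i, c i) < δ * H := by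
    intro H hH
    refine ⟨by linarith, ?_, ?_⟩
    · have : 0 ≤ 4 * (Rb + 1) * (d + 1) * (1 + cm + ∑ i, c i) / δ := by positivity
      linarith
    · have h1 : 4 * (Rb + 1) * (d + 1) * (1 + cm + ∑ i, c i) / δ < H := by linarith
      rwa [div_lt_iff₀ hδ, mul_comm H] at h1
  have hbig : ∀ H, H0 ≤ H → Big d H δ Rb := by
    intro H hH
    obtain ⟨h1, -, h3⟩ := key H hH
    refine ⟨h1.le, ?_⟩
    have he := Real.add_one_le_exp (H / 2)
    have h4 : 4 * (Rb + 1) * (d + 1) * 1 ≤ 4 * (Rb + 1) * (d + 1) * (1 + cm + ∑ i, c i) :=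
      mul_le_mul_of_nonneg_left (by linarith) (by positivity)
    nlinarith [mul_le_mul_of_nonneg_left he hδ.le]
  -- maximisers in logarithmic coordinates
  set xi : ℝ → V d → V d := fun H x k => Real.log (x k) / H
  have hexp : ∀ H, 0 < H → ∀ x : V d, (∀ i, 0 < x i) → ∀ k, Real.exp (H * xi H x k) = x k := by
    intro H hH x hx k
    simp only [xi]
    rw [mul_div_cancel₀ _ hH.ne', Real.exp_log (hx k)]
  have hmax : ∀ H, 0 < H → ∀ x : V d, (∀ i, 0 < x i) → ∀ fc ∈ P.leaves,
      (∀ g ∈ P.leaves, g.1.n ⬝ᵥ x - g.2 H ≤ fc.1.n ⬝ᵥ x - fc.2 H) →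
      IsMax P H Rb (xi H x) root P.M fc.1 fc.2 := by
    intro H hH x hx fc hfc hle
    refine ⟨mem_leaves.1 hfc, fun g cg hg => ?_⟩
    have := hle (g, cg) (mem_leaves.2 hg)
    simp only [Par.val, hexp H hH x hx, add_mul, sum_add_distrib, root, compl_empty]
    simp only [dotProduct] at this
    linarith
  have hc0 : ∀ fc ∈ P.leaves, fc.1.n = 0 → ∀ H, c0 H ≤ fc.2 H := fun fc h h0 H =>
    min'_le _ _ (mem_image.2 ⟨fc.2, mem_image_of_mem _ (mem_filter.2 ⟨h, h0⟩), rfl⟩)
  -- in a region every label is dominated by a zero one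
  have hdom : ∀ H x, (∀ l ∈ L, l.1 ⬝ᵥ x ≤ l.2 H) → ∀ g ∈ P.leaves,
      g.1.n ⬝ᵥ x - g.2 H ≤ -c0 H := by
    intro H x hle g hg
    by_cases h0 : g.1.n = 0
    · rw [h0, zero_dotProduct, zero_sub]
      exact neg_le_neg (hc0 g hg h0 H)
    · have h1 : g.1.n ⬝ᵥ x ≤ g.2 H - c0 H :=
        hle _ (mem_image.2 ⟨g, mem_filter.2 ⟨hg, h0⟩, rfl⟩)
      linarith
  have hbox : ∀ H, H0 ≤ H → ∀ x ∈ region R c L H, ∀ k,
      |xi H x k| ≤ 5 * (P.K : ℝ) ^ (8 ^ d + 2) := by
    intro H hH x hx k
    obtain ⟨q, hq, hqe⟩ := mem_image.1 (min'_mem _ (hZne.image fun q => q H))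
    obtain ⟨z, hz, rfl⟩ := mem_image.1 hq
    obtain ⟨hzl, hz0⟩ := mem_filter.1 hz
    refine box_of_zero hb (hbig H hH) (hmax H (key H hH).1 x hx.1.1 z hzl fun g hg => ?_) hz0 k
    rw [hz0, zero_dotProduct, zero_sub, hqe]
    exact hdom H x hx.2 g hg
  refine ⟨L, H0, by linarith, fun H hH => ?_, fun x hx => ?_, fun H hH x hx l hl h0 hle => ?_⟩
  · obtain ⟨hpos, -, -⟩ := key H hH
    set A : ℝ := 5 * (P.K : ℝ) ^ (8 ^ d + 2)
    set E : Set (V d) :=
      Set.Icc (fun _ => Real.exp (-(H * A))) fun _ => Real.exp (H * A)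
    have e : region R c L H =
        E ∩ ({x | x - c ∈ stoich R} ∩ ⋂ l ∈ L, {x | l.1 ⬝ᵥ x ≤ l.2 H}) := by
      ext x
      simp only [Set.mem_inter_iff, Set.mem_iInter, Set.mem_setOf_eq]
      refine ⟨fun hx => ⟨?_, hx.1.2, hx.2⟩, fun h => ⟨⟨fun i => ?_, h.2.1⟩, h.2.2⟩⟩
      · have hb' := fun k => abs_le.1 (hbox H hH x hx k)
        refine ⟨fun k => ?_, fun k => ?_⟩ <;>
          rw [← hexp H hpos x hx.1.1 k] <;> refine Real.exp_le_exp.2 ?_ <;>
          nlinarith [hb' k]
      · exact (Real.exp_pos _).trans_le (h.1.1 i)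
    rw [e]
    refine isCompact_Icc.inter_right (IsClosed.inter ?_ (isClosed_biInter fun l _ =>
      isClosed_le (by unfold dotProduct; fun_prop) continuous_const))
    exact (stoich R).closed_of_finiteDimensional.preimage (by fun_prop : Continuous fun x => x - c)
  · obtain ⟨j, hj⟩ := pow_unbounded_of_one_lt (4 * ∑ k, |Real.log (x k)| / H0) (one_lt_two (α := ℝ))
    set H := 2 ^ j * H0
    have hH : H0 ≤ H := le_mul_of_one_le_left (by linarith) (one_le_pow₀ one_le_two)
    obtain ⟨hpos, -, -⟩ := key H hH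
    have hsmall : ∀ k, |xi H x k| ≤ 1 / 4 := by
      intro k
      rw [show xi H x k = Real.log (x k) / H from rfl, abs_div, abs_of_pos hpos, div_le_iff₀ hpos]
      have h1 := single_le_sum (f := fun k => |Real.log (x k)| / H0)
        (fun k _ => div_nonneg (abs_nonneg _) (by linarith)) (mem_univ k)
      have h2 : 4 * (|Real.log (x k)| / H0) ≤ 2 ^ j := by linarith
      rw [mul_div_assoc', div_le_iff₀ (by linarith)] at h2
      linarith
    refine ⟨j, hx, fun l hl => ?_⟩
    obtain ⟨fc, hfc, hm⟩ := exists_max_image P.leaves (fun g => g.1.n ⬝ᵥ x - g.2 H)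
      (P.exists_zero_leaf.imp fun _ h => h.1)
    have hn : fc.1.n = 0 := by
      funext k
      have hs := signs hb (hbig H hH) (fun k => lt_of_le_of_lt (hsmall k)
        (lt_of_lt_of_le (by norm_num) (by exact_mod_cast (M_pos (P := P)) : (1 : ℝ) ≤ P.M)))
        (hmax H hpos x hx.1 fc hfc hm) (P.single_mem k)
      simp only [dotProduct_single, mul_one] at hs
      have := abs_le.1 (hsmall k)
      rcases lt_trichotomy (fc.1.n k) 0 with h | h | h
      · linarith [hs.2 h]
      · exact h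
      · linarith [hs.1 h]
    obtain ⟨g, hg, rfl⟩ := mem_image.1 hl
    have := hm g (mem_filter.1 hg).1
    rw [hn, zero_dotProduct] at this
    linarith [hc0 fc hfc hn H]
  · obtain ⟨hpos, hHH, hlarge⟩ := key H hH
    have hxpos : ∀ i, 0 < x i := hx.elim (fun h => h.1.1) fun h => h.1.1
    have hxS : x - c ∈ stoich R := hx.elim (fun h => h.1.2) fun h => h.1.2
    have hξ : ∀ k, |xi H x k| < P.M := by
      intro k
      have hK := pow_pos P.K_pos (8 ^ d + 2)
      rcases hx with hx | hx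
      · linarith [hbox H hH x hx k, M_big (P := P)]
      · have h := hbox (2 * H) (by linarith) x hx k
        have : xi H x k = 2 * xi (2 * H) x k := by simp only [xi]; field_simp
        rw [this, abs_mul, abs_of_pos two_pos]
        linarith [M_big (P := P)]
    obtain ⟨g, hg, rfl⟩ := mem_image.1 hl
    obtain ⟨hgl, hgn⟩ := mem_filter.1 hg
    have hM := hmax H hpos x hxpos g hgl fun g' hg' => by
      by_cases h' : g'.1.n = 0
      · rw [h', zero_dotProduct]
        linarith [hc0 g' hg' h' H]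
      · have := hle _ (mem_image.2 ⟨g', mem_filter.2 ⟨hg', h'⟩, rfl⟩)
        linarith
    have hs := fun v hv => signs hb (hbig H hH) hξ hM (v := v) hv
    have hcoord : ∀ k, (0 < g.1.n k → H + 1 ≤ x k) ∧ (g.1.n k < 0 → x k * H ≤ 1) := by
      intro k
      have h := hs _ (P.single_mem k)
      simp only [dotProduct_single, mul_one] at h
      rw [← hexp H hpos x hxpos k]
      refine ⟨fun hn => (Real.add_one_le_exp H).trans (Real.exp_le_exp.2 ?_), fun hn => ?_⟩
      · exact le_mul_of_one_le_right hpos.le (h.1 hn)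
      · have h1 : Real.exp (H * xi H x k) ≤ Real.exp (-H) :=
          Real.exp_le_exp.2 (by nlinarith [h.2 hn])
        refine le_trans (mul_le_mul_of_nonneg_right h1 hpos.le) ?_
        rw [Real.exp_neg, ← div_eq_inv_mul, div_le_one (Real.exp_pos _)]
        linarith [Real.add_one_le_exp H]
    have hne : ∃ r ∈ R, g.1.n ⬝ᵥ vec r ≠ 0 := by
      by_contra hno
      push Not at hno
      have horth : g.1.n ⬝ᵥ x = g.1.n ⬝ᵥ c := by
        have := dot_eq_of_mem (n := g.1.n) (by rintro _ ⟨r, hr, rfl⟩; exact hno r hr) hxS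
        rw [dotProduct_sub] at this
        linarith
      have habs : ∀ k, |g.1.n k| ≤ Rb := fun k => hb.abs_le _ _ hM.1 k (by simp [root])
      have hgap : ∀ k, g.1.n k ≠ 0 → δ ≤ |g.1.n k| := by
        intro k hk
        obtain ⟨z, hz, hz0⟩ := P.exists_zero_leaf
        rcases lt_or_gt_of_ne hk with hk | hk
        · have := hb.gap _ _ _ _ hM.1 (mem_leaves.1 hz) k (by simp [root]) k (by simp [root])
            (by rw [hz0]; exact hk)
          rw [hz0] at this
          rw [abs_of_neg hk]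
          simpa using this
        · have := hb.gap _ _ _ _ (mem_leaves.1 hz) hM.1 k (by simp [root]) k (by simp [root])
            (by rw [hz0]; exact hk)
          rw [hz0] at this
          rw [abs_of_pos hk]
          simpa using this
      have hnc : |g.1.n ⬝ᵥ c| ≤ Rb * ∑ i, c i := by
        rw [mul_sum]
        exact (abs_sum_le_sum_abs _ _).trans (sum_le_sum fun i _ => by
          rw [abs_mul, abs_of_pos (hc i)]; exact mul_le_mul_of_nonneg_right (habs i) (hc i).le)
      by_cases hex : ∃ k, 0 < g.1.n k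
      · obtain ⟨k, hk⟩ := hex
        have h1 : g.1.n k * x k - d * Rb ≤ g.1.n ⬝ᵥ x := by
          have h2 : ∀ j ∈ univ, (if j = k then g.1.n k * x k else 0) - Rb ≤ g.1.n j * x j := by
            intro j _
            split_ifs with hjk
            · subst hjk; linarith
            · rcases le_or_gt 0 (g.1.n j) with h | h
              · nlinarith [hxpos j]
              · have := (hcoord j).2 h
                have hx1 : x j ≤ 1 := by nlinarith [hxpos j, (key H hH).1, hH0]
                nlinarith [(abs_le.1 (habs j)).1, hxpos j]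
          have := sum_le_sum h2
          simpa [sum_sub_distrib, dotProduct] using this
        have h3 : δ * (H + 1) ≤ g.1.n k * x k := by
          have := hgap k hk.ne'
          rw [abs_of_pos hk] at this
          exact mul_le_mul this ((hcoord k).1 hk) (by linarith) hk.le
        nlinarith [(abs_le.1 hnc).2, mul_nonneg hR0 hsc, mul_nonneg (mul_nonneg hR0 hsc)
          (Nat.cast_nonneg d : (0 : ℝ) ≤ d), mul_nonneg hR0 (Nat.cast_nonneg d : (0 : ℝ) ≤ d)]
      · push Not at hex
        obtain ⟨k, hk⟩ : ∃ k, g.1.n k ≠ 0 := Function.ne_iff.1 hgn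
        have h1 : g.1.n ⬝ᵥ c ≤ g.1.n k * c k := by
          rw [dotProduct, ← add_sum_erase _ _ (mem_univ k)]
          have : ∑ j ∈ univ.erase k, g.1.n j * c j ≤ 0 :=
            sum_nonpos fun j _ => mul_nonpos_of_nonpos_of_nonneg (hex j) (hc j).le
          linarith
        have h2 : ∀ j ∈ univ, -Rb ≤ g.1.n j * x j * H := by
          intro j _
          rcases (hex j).eq_or_lt with h | h
          · rw [h, zero_mul, zero_mul]; linarith
          · nlinarith [(abs_le.1 (habs j)).1, (hcoord j).2 h, mul_pos (hxpos j) hpos]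
        have h3 := sum_le_sum h2
        rw [sum_const, card_univ, Fintype.card_fin, nsmul_eq_mul, ← sum_mul] at h3
        change (d : ℝ) * -Rb ≤ (g.1.n ⬝ᵥ x) * H at h3
        rw [horth] at h3
        have h4 : g.1.n k * c k ≤ -δ * c k := by
          have := hgap k hk
          rw [abs_of_nonpos (hex k)] at this
          nlinarith [hc k]
        have h5 : δ * c k * H ≤ d * Rb := by
          nlinarith [mul_le_mul_of_nonneg_right (h1.trans h4) hpos.le]
        have h6 : 1 ≤ c k * cm := by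
          have : (c k)⁻¹ ≤ cm := by
            have := single_le_sum (f := fun i => (c i)⁻¹) (fun i _ => (inv_pos.2 (hc i)).le)
              (mem_univ k)
            linarith
          rwa [inv_le_iff_one_le_mul₀' (hc k)] at this
        have h7 : δ * H ≤ d * Rb * cm :=
          calc δ * H ≤ δ * H * (c k * cm) := le_mul_of_one_le_right (by positivity) h6
            _ = δ * c k * H * cm := by ring
            _ ≤ _ := mul_le_mul_of_nonneg_right h5 hcm.le
        nlinarith [mul_nonneg hR0 hcm.le, mul_nonneg (mul_nonneg hR0 hcm.le)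
          (Nat.cast_nonneg d : (0 : ℝ) ≤ d), mul_nonneg hR0 (Nat.cast_nonneg d : (0 : ℝ) ≤ d)]
    obtain ⟨k, hk, he⟩ := exists_field_eq hε hε1 R g.1.n x
    rw [← he]
    refine hcut x hxpos (dotProductBilin ℝ ℝ g.1.n) (fun v hv hpv => ?_) hne k hk
    have h1 := (hs v (hP hv)).1 hpv
    have h2 : pair x v = H * (xi H x ⬝ᵥ v) := by
      rw [pair, dotProduct, mul_sum]
      refine sum_congr rfl fun i _ => ?_
      simp only [xi]
      field_simp
    rw [h2]
    exact hHH.trans (le_mul_of_one_le_right hpos.le h1)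

end Vale.Agent.P072.Perm
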