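import Vale.Agent.P072.Perm.Label

/-! The finite tree of label vectors.

A step places a block of coordinates on one label; the further members of a block pay costs at
positions falling away from the position of the block, and later blocks lie below all of them. -/

noncomputable section

namespace Vale.Agent.P072.Perm

open Finset

variable {d : ℕ} {P : Par d} {p : St d}

lemma update_dot {f : V d} {k : Fin d} (h : f k = 0) (t : ℝ) (v : V d) :
    Function.update f k t ⬝ᵥ v = f ⬝ᵥ v + t * v k := by
  have : Function.update f k t = f + Pi.single k t := by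
    funext j
    by_cases hj : j = k
    · subst hj; simp [h]
    · simp [hj]
  rw [this, add_dotProduct, single_dotProduct]

namespace Par

/-- A new coordinate with an admissible position and label keeps the invariant. -/
lemma inv_add (hp : P.Inv p) {k : Fin d} (hk : k ∉ p.J) {X : ℤ} {t : ℝ} {a' : ℕ}
    (hg : Good P p X t a') (ha : p.a ≤ a') (hb : a' + 8 ^ (p.rem - 1) ≤ p.a + 8 ^ p.rem) :
    P.Inv ⟨insert k p.J, Function.update p.Xh k X, Function.update p.n k t, a'⟩ := by
  set p' : St d := ⟨insert k p.J, Function.update p.Xh k X, Function.update p.n k t, a'⟩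
  have hrem : p'.rem = p.rem - 1 := by simp [p', St.rem, card_insert_of_notMem hk]; omega
  have hX : p'.X = Function.update p.X k (X : ℝ) := by
    funext j
    by_cases hj : j = k
    · subst hj; simp [p', St.X]
    · simp [p', St.X, hj]
  obtain ⟨hXk, hnk⟩ := hp.2.1 k hk
  refine ⟨hp.1.trans ha, fun j hj => ?_, fun v hv hs => ?_⟩
  · simp only [p', mem_insert, not_or] at hj
    simpa [p', hj.1] using hp.2.1 j hj.2
  rw [hrem] at hv ⊢
  rw [hX]
  rw [show p'.n = Function.update p.n k t from rfl, update_dot hnk,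
    update_dot (by simp [St.X, hXk])]
  have hsupp : ∀ j, v j ≠ 0 → j = k ∨ j ∈ p.J := fun j hj => mem_insert.1 (hs j hj)
  by_cases hvk : v k = 0
  · simp only [hvk, mul_zero, add_zero]
    obtain ⟨h1, h2, h3⟩ := hp.2.2 v (clo_mono P.D (Nat.sub_le _ _) hv) fun j hj =>
      (hsupp j hj).resolve_left fun e => hj (e ▸ hvk)
    have hA := P.pow_le ha
    have hB := P.pow_le hb
    exact ⟨fun h => (h1 h).trans hA, fun h => hB.trans (h2 h),
      fun h => (h3 h).trans (neg_le_neg hB)⟩
  · have hq := hg _ (P.thr_of hv hk hsupp hvk)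
    have bv := P.bound v (clo_mono P.D ((Nat.sub_le _ _).trans (Nat.sub_le _ _)) hv)
    have hv1 : |v k| ≤ P.Λ :=
      (single_le_sum (f := fun i => |v i|) (fun i _ => abs_nonneg _) (mem_univ k)).trans bv.1
    have hv2 := bv.2 k hvk
    set θ := -(p.X ⬝ᵥ v) / v k with hθ
    set tv := -(p.n ⬝ᵥ v) / v k with htv
    have e1 : p.n ⬝ᵥ v + t * v k = v k * (t - tv) := by rw [htv]; field_simp; ring
    have e2 : p.X ⬝ᵥ v + (X : ℝ) * v k = v k * (X - θ) := by rw [hθ]; field_simp; ring
    rw [e1, e2]
    obtain ⟨g1, g2, g3⟩ := hq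
    set Bv := (P.K : ℝ) ^ (a' + 8 ^ (p.rem - 1))
    have key : ∀ z : ℝ, P.Λ * Bv ≤ z → Bv ≤ |v k| * z := by
      intro z hz
      have : 0 ≤ z := le_trans (mul_nonneg (zero_le_one.trans P.one_le) (by positivity)) hz
      nlinarith [mul_le_mul_of_nonneg_left hz (abs_nonneg (v k)),
        mul_le_mul_of_nonneg_right hv2 (show 0 ≤ Bv by positivity)]
    refine ⟨fun h => ?_, fun h => ?_, fun h => ?_⟩
    · have he : t = tv := by
        have := (mul_eq_zero.1 h).resolve_left hvk
        linarith
      rw [abs_mul]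
      exact (mul_le_mul_of_nonneg_right hv1 (abs_nonneg _)).trans (g1 he)
    · rcases lt_or_gt_of_ne hvk with hneg | hpos
      · have hlt : t < tv := by nlinarith
        have := key _ (g3 hlt)
        rw [abs_of_neg hneg] at this
        nlinarith
      · have hlt : tv < t := by nlinarith
        have := key _ (g2 hlt)
        rw [abs_of_pos hpos] at this
        nlinarith
    · rcases lt_or_gt_of_ne hvk with hneg | hpos
      · have hlt : tv < t := by nlinarith
        have := key _ (g2 hlt)
        rw [abs_of_neg hneg] at this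
        nlinarith
      · have hlt : t < tv := by nlinarith
        have := key _ (g3 hlt)
        rw [abs_of_pos hpos] at this
        nlinarith

variable (P)

/-- Bound on all positions. -/
def M : ℤ := (P.K : ℤ) ^ (8 ^ d + 3)

/-- Exponent after the first `m` members of a block at `i`. -/
def aB (p : St d) (i : ℤ) : ℕ → ℕ
  | 0 => p.a
  | 1 => first P p i
  | m + 2 => next (aB p i (m + 1)) (p.rem - (m + 1))

/-- Window of the member after the first `m`. -/
def wB (p : St d) (i : ℤ) (m : ℕ) : ℤ := P.wid (P.aB p i m) (p.rem - m)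

/-- The block `B` at position `i`. -/
def blk (p : St d) (B : Finset (Fin d)) (i : ℤ) : St d :=
  ⟨p.J ∪ B, fun k => if k ∈ B then i else p.Xh k, fun k => if k ∈ B then P.lab p i else p.n k,
    P.aB p i B.card⟩

/-- The top position left after `m` members at `i`. -/
def capNext (p : St d) (i : ℤ) (m : ℕ) : ℤ := i - 2 * P.wB p i m - 1

/-- The first position with the label of `i`. -/
def first_pos (p : St d) (i : ℤ) : ℤ :=
  if h : ((Finset.Icc (-P.M) i).filter fun j => P.lab p j = P.lab p i).Nonempty then
    ((Finset.Icc (-P.M) i).filter fun j => P.lab p j = P.lab p i).min' h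
  else i

/-- Position at which the `q`-th member pays. -/
def edge (p : St d) (i : ℤ) (q : ℕ) : ℤ :=
  if q = 1 then P.first_pos p i else max (-P.M) (i - 2 * P.wB p i (q - 1))

/-- Cost of a block of `m` members at `i`. -/
def cost (p : St d) (i : ℤ) (m : ℕ) (H : ℝ) : ℝ :=
  ∑ q ∈ Finset.Icc 1 m, Real.exp (H * ((P.edge p i q : ℝ) - 1 / 2))

/-- The complete label vectors below a node, with their costs. -/
inductive Comp : St d → ℤ → St d → (ℝ → ℝ) → Prop
  | done (p : St d) (cap : ℤ) : p.J = univ → Comp p cap p 0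
  | step {p : St d} {cap : ℤ} {B : Finset (Fin d)} {i : ℤ} {f : St d} {c : ℝ → ℝ} :
      B.Nonempty → Disjoint p.J B → -P.M ≤ i → i ≤ cap →
      (p.J ∪ B = univ ∨ -P.M ≤ P.capNext p i B.card) →
      Comp (P.blk p B i) (P.capNext p i B.card) f c → Comp p cap f (P.cost p i B.card + c)

variable {P}

lemma blk_rem {B : Finset (Fin d)} (hd : Disjoint p.J B) (i : ℤ) :
    (P.blk p B i).rem = p.rem - B.card := by
  simp [blk, St.rem, card_union_of_disjoint hd]; omega

lemma card_le_rem {B : Finset (Fin d)} (hd : Disjoint p.J B) : B.card ≤ p.rem := by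
  have := card_le_univ (p.J ∪ B)
  rw [card_union_of_disjoint hd, Fintype.card_fin] at this
  simp [St.rem]; omega

lemma first_le_next (i : ℤ) : p.a ≤ first P p i ∧ first P p i ≤ next p.a p.rem := by
  classical
  rw [first]
  split_ifs <;> simp only [next] <;> generalize 8 ^ (p.rem - 1) = z <;> omega

/-- Exponents grow along a block and stay in their budget. -/
lemma aB_bounds (i : ℤ) : ∀ m ≤ p.rem, p.a ≤ P.aB p i m ∧
    P.aB p i m + 8 ^ (p.rem - m) ≤ p.a + 8 ^ p.rem
  | 0, _ => by simp [aB]
  | 1, h => by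
    have h1 := first_le_next (P := P) (p := p) i
    have h2 := eight_pow (r := p.rem) (by omega)
    simp only [next] at h1
    simp only [aB]
    omega
  | m + 2, h => by
    obtain ⟨h1, h2⟩ := aB_bounds i (m + 1) (by omega)
    have h3 := eight_pow (r := p.rem - (m + 1)) (by omega)
    have e : p.rem - (m + 1) - 1 = p.rem - (m + 2) := by omega
    rw [e] at h3
    simp only [aB, next, e]
    omega

/-- A block keeps the invariant. -/
lemma inv_blk (hp : P.Inv p) {B : Finset (Fin d)} (hB : B.Nonempty) (hd : Disjoint p.J B)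
    (i : ℤ) : P.Inv (P.blk p B i) := by
  induction hB using Finset.Nonempty.cons_induction with
  | singleton k =>
    have hk : k ∉ p.J := Finset.disjoint_singleton_right.1 hd
    have hr := St.rem_pos hk
    have he : P.blk p {k} i =
        ⟨insert k p.J, Function.update p.Xh k i, Function.update p.n k (P.lab p i), first P p i⟩ := by
      simp only [blk, card_singleton, aB, St.mk.injEq]
      refine ⟨by rw [union_comm, insert_eq], ?_, ?_, trivial⟩ <;>
      · funext j
        by_cases hj : j = k
        · subst hj; simp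
        · simp [hj]
    rw [he]
    exact inv_add hp hk (good_lab hp hr i) (first_le_next i).1
      (by simpa [aB] using (aB_bounds (P := P) i 1 hr).2)
  | cons k B' hkB hB' ih =>
    rw [cons_eq_insert, disjoint_insert_right] at hd
    have ih := ih hd.2
    obtain ⟨j₀, hj₀⟩ := hB'
    set p' := P.blk p B' i
    have hk : k ∉ p'.J := by simp [p', blk, hd.1, hkB]
    have hr := St.rem_pos hk
    have hrem : p'.rem = p.rem - B'.card := blk_rem hd.2 i
    have hcard : 1 ≤ B'.card := card_pos.2 ⟨j₀, hj₀⟩
    have hq : ((i : ℝ), P.lab p i) ∈ P.thr p' := by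
      simpa [p', blk, hj₀] using ih.coord_thr hk (show j₀ ∈ p'.J by simp [p', blk, hj₀])
    have hw : |(i : ℝ) - (i : ℝ)| ≤ P.wid p'.a p'.rem := by
      simp only [sub_self, abs_zero]
      exact_mod_cast zero_le_one.trans (P.one_le_wid _ _)
    have he : P.blk p (cons k B' hkB) i = ⟨insert k p'.J, Function.update p'.Xh k i,
        Function.update p'.n k (P.lab p i), next p'.a p'.rem⟩ := by
      obtain ⟨m, hm⟩ := Nat.exists_eq_add_of_le' hcard
      simp only [p', blk, St.mk.injEq, cons_eq_insert]
      refine ⟨by rw [union_insert], ?_, ?_, ?_⟩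
      · funext j
        by_cases hj : j = k
        · subst hj; simp
        · simp [hj]
      · funext j
        by_cases hj : j = k
        · subst hj; simp
        · simp [hj]
      · change P.aB p i _ = next _ (P.blk p B' i).rem
        rw [blk_rem hd.2, card_insert_of_notMem hkB, hm]
        rfl
    rw [he]
    refine inv_add ih hk (good_of_near ih hr hq hw)
      (by simp only [next]; generalize 8 ^ (p'.rem - 1) = z; omega) ?_
    have := eight_pow hr
    simp only [next]; omega

/-- Below a placed coordinate all labels are strictly smaller. -/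
lemma lab_below (hp : P.Inv p) {k j : Fin d} (hk : k ∉ p.J) (hj : j ∈ p.J) {z : ℤ}
    (hz : z < p.Xh j - 2 * P.wid p.a p.rem) : P.lab p z < p.n j := by
  have hr := St.rem_pos hk
  have hq := hp.coord_thr hk hj
  obtain ⟨g1, g2, g3⟩ := good_lab hp hr z _ hq
  have hw : (1 : ℝ) ≤ P.wid p.a p.rem := by exact_mod_cast P.one_le_wid _ _
  have hz' : (z : ℝ) < p.Xh j - 2 * (P.wid p.a p.rem : ℝ) := by exact_mod_cast hz
  rcases lt_trichotomy (P.lab p z) (p.n j) with h | h | h
  · exact h
  · exfalso
    classical
    by_cases hwin : P.Win p z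
    · obtain ⟨q, hq', hqz⟩ := hwin
      rw [lab_win hp hr hq' hqz] at h
      have h1 := (hp.sep hq' hq).1 h
      have h2 := (P.wid_gap (a := p.a) hr).2.1
      rw [abs_le] at h1 hqz
      have : 0 ≤ P.Λ ^ 2 * (P.K : ℝ) ^ p.a := by positivity
      simp only at h1
      linarith
    · rcases lab_out_cmp hp hr hwin hq with hh | hh <;> linarith [hh.1]
  · exfalso
    have := g2 h
    have : 0 ≤ P.Λ * (P.K : ℝ) ^ (first P p z + 8 ^ (p.rem - 1)) :=
      mul_nonneg (zero_le_one.trans P.one_le) (by positivity)
    simp only at *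
    linarith

lemma ne_univ_of_lt {B : Finset (Fin d)} {k : Fin d} (hk : k ∉ B) : B ≠ univ :=
  fun h => hk (h ▸ mem_univ k)

/-- Properties of a completion. -/
structure Props (P : Par d) (p f : St d) (c : ℝ → ℝ) : Prop where
  inv : P.Inv f
  full : f.J = univ
  keep : ∀ j ∈ p.J, f.Xh j = p.Xh j ∧ f.n j = p.n j
  a_le : p.a ≤ f.a
  a_bd : f.a + 1 ≤ p.a + 8 ^ p.rem
  nonneg : ∀ H, 0 ≤ c H

lemma Comp.props {cap : ℤ} {f : St d} {c : ℝ → ℝ} (h : P.Comp p cap f c) (hp : P.Inv p) :
    Props P p f c := by
  induction h with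
  | done p cap hJ =>
    exact ⟨hp, hJ, fun j _ => ⟨rfl, rfl⟩, le_rfl, by simp [St.rem, hJ], fun H => le_rfl⟩
  | step hB hd _ _ _ _ ih =>
    rename_i p cap B i f c _ _ _ _
    have hI := ih (inv_blk hp hB hd i)
    obtain ⟨h1, h2⟩ := aB_bounds (P := P) (p := p) i B.card (card_le_rem hd)
    refine ⟨hI.inv, hI.full, fun j hj => ?_, h1.trans hI.a_le, ?_, fun H => ?_⟩
    · have hjB : j ∉ B := Finset.disjoint_left.1 hd hj
      simpa [blk, hjB] using hI.keep j (by simp [blk, hj])
    · have := hI.a_bd
      rw [blk_rem hd] at this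
      simp only [blk] at this
      omega
    · exact add_nonneg (sum_nonneg fun q _ => (Real.exp_pos _).le) (hI.nonneg H)

/-- Labels of a completion are at most the label of the top position. -/
lemma Comp.le_lab {cap : ℤ} {f : St d} {c : ℝ → ℝ} (h : P.Comp p cap f c) (hp : P.Inv p) :
    ∀ k ∉ p.J, f.n k ≤ P.lab p cap := by
  induction h with
  | done p cap hJ => exact fun k hk => absurd (hJ ▸ mem_univ k) hk
  | step hB hd hi hcap hok hc ih =>
    rename_i p cap B i f c
    intro k hk
    have hI := inv_blk hp hB hd i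
    refine le_trans ?_ (lab_mono hp (St.rem_pos hk) hcap)
    by_cases hkB : k ∈ B
    · rw [((hc.props hI).keep k (by simp [blk, hkB])).2]; simp [blk, hkB]
    · have hk' : k ∉ (P.blk p B i).J := by simp [blk, hk, hkB]
      obtain ⟨j, hj⟩ := hB
      refine (ih hI k hk').trans ?_
      have := lab_below hI hk' (show j ∈ (P.blk p B i).J by simp [blk, hj])
        (z := P.capNext p i B.card) (by rw [blk_rem hd]; simp [blk, hj, capNext, wB])
      simpa [blk, hj] using this.le

/-- Coordinates outside a block get strictly smaller labels. -/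
lemma lt_lab_of_step {B : Finset (Fin d)} (hB : B.Nonempty) (hd : Disjoint p.J B) {i : ℤ}
    {f : St d} {c : ℝ → ℝ} (hc : P.Comp (P.blk p B i) (P.capNext p i B.card) f c)
    (hp : P.Inv p) {k : Fin d} (hk : k ∉ p.J) (hkB : k ∉ B) : f.n k < P.lab p i := by
  have hI := inv_blk hp hB hd i
  have hk' : k ∉ (P.blk p B i).J := by simp [blk, hk, hkB]
  obtain ⟨j, hj⟩ := hB
  refine (hc.le_lab hI k hk').trans_lt ?_
  have := lab_below hI hk' (show j ∈ (P.blk p B i).J by simp [blk, hj])
    (z := P.capNext p i B.card) (by rw [blk_rem hd]; simp [blk, hj, capNext, wB])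
  simpa [blk, hj] using this

/-- All remaining coordinates on one label. -/
lemma comp_finish {cap i : ℤ} (hne : p.J ≠ univ) (hi : -P.M ≤ i) (hc : i ≤ cap) :
    P.Comp p cap (P.blk p p.Jᶜ i) (P.cost p i p.Jᶜ.card) := by
  have hB : p.Jᶜ.Nonempty := by
    rw [nonempty_iff_ne_empty, Ne, compl_eq_empty_iff]; exact hne
  have hu : p.J ∪ p.Jᶜ = univ := union_compl _
  have h := Comp.step hB disjoint_compl_right hi hc (Or.inl hu)
    (Comp.done (P := P) (P.blk p p.Jᶜ i) (P.capNext p i p.Jᶜ.card) hu)
  simpa using h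

variable (P)

/-- There are finitely many completions. -/
lemma comp_finite (p : St d) (cap : ℤ) :
    {fc : St d × (ℝ → ℝ) | P.Comp p cap fc.1 fc.2}.Finite := by
  suffices ∀ r, ∀ (p : St d) (cap : ℤ), p.Jᶜ.card ≤ r →
      {fc : St d × (ℝ → ℝ) | P.Comp p cap fc.1 fc.2}.Finite from this _ p cap le_rfl
  intro r
  induction r with
  | zero =>
    intro p cap hr
    refine (Set.finite_singleton (p, (0 : ℝ → ℝ))).subset ?_
    rintro ⟨f, c⟩ h
    cases h with
    | done => rfl
    | step hB hd _ _ _ _ =>
      obtain ⟨k, hk⟩ := hB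
      have : k ∈ p.Jᶜ := mem_compl.2 fun h' => Finset.disjoint_left.1 hd h' hk
      exact absurd (card_pos.2 ⟨k, this⟩) (by omega)
  | succ r ih =>
    intro p cap hr
    refine ((Set.finite_singleton (p, (0 : ℝ → ℝ))).union
      (((p.Jᶜ.powerset.filter Finset.Nonempty) ×ˢ Finset.Icc (-P.M) cap).finite_toSet.biUnion'
        fun Bi hBi => (ih (P.blk p Bi.1 Bi.2) (P.capNext p Bi.2 Bi.1.card) ?_).image
          fun fc => (fc.1, P.cost p Bi.2 Bi.1.card + fc.2))).subset ?_
    · simp only [mem_coe, mem_product, mem_filter, mem_powerset] at hBi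
      obtain ⟨k, hk⟩ := hBi.1.2
      have : (P.blk p Bi.1 Bi.2).Jᶜ ⊂ p.Jᶜ := by
        refine ⟨fun j hj => ?_, fun hsub => ?_⟩
        · simp [blk] at hj ⊢; exact hj.1
        · have := hsub (hBi.1.1 hk)
          simp [blk, hk] at this
      have := card_lt_card this
      omega
    · rintro ⟨f, c⟩ h
      cases h with
      | done => exact Or.inl rfl
      | @step _ _ B i _ c hB hd hi hcap _ hc =>
        refine Or.inr (Set.mem_iUnion₂.2 ⟨(B, i), ?_, (f, c), hc, rfl⟩)
        simp only [mem_coe, mem_product, mem_filter, mem_powerset, Finset.mem_Icc]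
        exact ⟨⟨fun j hj => mem_compl.2 fun h' => Finset.disjoint_left.1 hd h' hj, hB⟩, hi, hcap⟩

end Par

end Vale.Agent.P072.Perm
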